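import Vale.Agent.P227.Rot.Energy

/-!
# P227, rotations: the estimates on one sequence of samples
-/

namespace Vale.Agent.P227.Rot

open Real Finset

noncomputable section

/-- The even sample at scale `t`. -/
def evenS (t m n : ℝ) : ℝ := (m / t + t * n) / 2

/-- The difference sample at scale `t`. -/
def diffS (t m n : ℝ) : ℝ := (m / t - t * n) / 2

/-- The averaged odd sample at scale `t`. -/
def oddS (t δ ε : ℝ) : ℝ := (δ / t + t * ε) / (t + 1 / t)

/-- The odd defect at scale `t`. -/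
def defS (t δ ε : ℝ) : ℝ := (δ - ε) / (t + 1 / t)

theorem exists_balance {n : ℕ} (hn : 0 < n) {U V : ℕ → ℝ} (hU : ∀ i, 0 < U i)
    (hV : ∀ i, 0 < V i) : ∃ σ : ℝ, 0 < σ ∧ ∃ i < n, ∃ j < n, ∀ e < n,
      σ * U e - V e / σ ≤ σ * U i - V i / σ ∧ σ * U j - V j / σ ≤ σ * U e - V e / σ ∧
      (σ * U i - V i / σ) + (σ * U j - V j / σ) = 0 := by
  have hne : (range n).Nonempty := ⟨0, Finset.mem_range.2 hn⟩
  set g : ℝ → ℝ := fun σ => (range n).sup' hne (fun e => σ * U e - V e / σ)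
    + (range n).inf' hne fun e => σ * U e - V e / σ
  set lo := (range n).inf' hne fun e => √(V e / U e) with hlo
  set hi := (range n).sup' hne fun e => √(V e / U e) with hhi
  have hlo0 : 0 < lo := (lt_inf'_iff hne).2 fun e _ => sqrt_pos.2 (div_pos (hV e) (hU e))
  have hlh : lo ≤ hi := (Finset.inf'_le _ (Finset.mem_range.2 hn)).trans
    (Finset.le_sup' (fun e => √(V e / U e)) (Finset.mem_range.2 hn))
  have hcont : ContinuousOn g (Set.Icc lo hi) := by
    have h : ∀ e ∈ range n, ContinuousOn (fun σ => σ * U e - V e / σ) (Set.Icc lo hi) :=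
      fun e _ => (continuousOn_id.mul continuousOn_const).sub
        (continuousOn_const.div continuousOn_id fun σ hσ => (hlo0.trans_le hσ.1).ne')
    exact (ContinuousOn.finset_sup'_apply hne h).add (ContinuousOn.finset_inf'_apply hne h)
  have hsign : ∀ e σ : ℝ, 0 < σ → ∀ i, (σ ≤ √(V i / U i) → σ * U i - V i / σ ≤ 0)
      ∧ (√(V i / U i) ≤ σ → 0 ≤ σ * U i - V i / σ) := by
    intro _ σ hσ i
    have e : σ * U i - V i / σ = (σ ^ 2 - V i / U i) * U i / σ := by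
      field_simp [(hU i).ne', hσ.ne']
    have hq := sq_sqrt (div_pos (hV i) (hU i)).le
    refine ⟨fun h => ?_, fun h => ?_⟩ <;> rw [e]
    · refine div_nonpos_of_nonpos_of_nonneg (mul_nonpos_of_nonpos_of_nonneg ?_ (hU i).le) hσ.le
      nlinarith [sqrt_nonneg (V i / U i)]
    · refine div_nonneg (mul_nonneg ?_ (hU i).le) hσ.le
      nlinarith [sqrt_nonneg (V i / U i)]
  obtain ⟨σ, hσ, hgσ⟩ : ∃ σ ∈ Set.Icc lo hi, g σ = 0 := by
    refine intermediate_value_Icc hlh hcont ⟨?_, ?_⟩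
    · refine add_nonpos (Finset.sup'_le _ _ fun e he => ?_)
        ((Finset.inf'_le _ (Finset.mem_range.2 hn)).trans ?_)
      · exact (hsign 0 lo hlo0 e).1 (Finset.inf'_le _ he)
      · exact (hsign 0 lo hlo0 0).1 (Finset.inf'_le _ (Finset.mem_range.2 hn))
    · refine add_nonneg (le_trans ?_ (Finset.le_sup' _ (Finset.mem_range.2 hn)))
        (Finset.le_inf' _ _ fun e he => ?_)
      · exact (hsign 0 hi (hlo0.trans_le hlh) 0).2
          (Finset.le_sup' (fun e => √(V e / U e)) (Finset.mem_range.2 hn))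
      · exact (hsign 0 hi (hlo0.trans_le hlh) e).2
          (Finset.le_sup' (fun e => √(V e / U e)) he)
  obtain ⟨i, hi', hmi⟩ := Finset.exists_mem_eq_sup' hne fun e => σ * U e - V e / σ
  obtain ⟨j, hj', hmj⟩ := Finset.exists_mem_eq_inf' hne fun e => σ * U e - V e / σ
  refine ⟨σ, hlo0.trans_le hσ.1, i, Finset.mem_range.1 hi', j, Finset.mem_range.1 hj',
    fun e he => ⟨?_, ?_, ?_⟩⟩
  · rw [← hmi]; exact Finset.le_sup' (fun e => σ * U e - V e / σ) (Finset.mem_range.2 he)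
  · rw [← hmj]; exact Finset.inf'_le _ (Finset.mem_range.2 he)
  · simp only [g] at hgσ
    rw [hmi, hmj] at hgσ
    exact hgσ

theorem sample_id {t m n δ ε : ℝ} (ht : 0 < t) :
    m = t * (evenS t m n + diffS t m n) ∧ n = (evenS t m n - diffS t m n) / t
      ∧ δ = oddS t δ ε + t * defS t δ ε ∧ ε = oddS t δ ε - defS t δ ε / t := by
  simp only [evenS, diffS, oddS, defS]
  refine ⟨?_, ?_, ?_, ?_⟩ <;> field_simp <;> ring

theorem sample_bounds {t m n δ ε : ℝ} (ht : 0 < t) (hm : 0 < m) (hn : 0 < n)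
    (hδ : 3 * |δ| ≤ m) (hε : 3 * |ε| ≤ n) :
    0 < evenS t m n ∧ 3 * |oddS t δ ε| ≤ evenS t m n
      ∧ 3 * |defS t δ ε| ≤ evenS t m n + |diffS t m n| := by
  obtain ⟨h1, h2, h3, h4⟩ := sample_id (m := m) (n := n) (δ := δ) (ε := ε) ht
  have hM : 0 < evenS t m n := by
    have := div_pos hm ht; have := mul_pos ht hn
    simp only [evenS]; linarith
  have htt : 0 < t + 1 / t := by positivity
  refine ⟨hM, ?_, ?_⟩
  · have h5 : (2 : ℝ) ≤ t + 1 / t := by
      rw [le_iff_exists_nonneg_add]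
      exact ⟨(t - 1) ^ 2 / t, by positivity, by field_simp; ring⟩
    have h6 : |δ / t + t * ε| ≤ |δ| / t + t * |ε| := by
      refine (abs_add_le _ _).trans (le_of_eq ?_)
      rw [abs_div, abs_mul, abs_of_pos ht]
    have h7 : 2 * evenS t m n = m / t + t * n := by simp only [evenS]; ring
    have h8 : 3 * (|δ| / t) ≤ m / t := by
      rw [← mul_div_assoc]; exact div_le_div_of_nonneg_right hδ ht.le
    have h9 := mul_le_mul_of_nonneg_left hε ht.le
    simp only [oddS]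
    rw [abs_div, abs_of_pos htt, ← mul_div_assoc, div_le_iff₀ htt]
    nlinarith [mul_le_mul_of_nonneg_left h5 hM.le]
  · set M := evenS t m n
    set D := diffS t m n
    set y := defS t δ ε
    have e : δ - ε = (t + 1 / t) * y := by simp only [y, defS]; field_simp
    refine le_of_mul_le_mul_left ?_ htt
    calc (t + 1 / t) * (3 * |y|) = 3 * |δ - ε| := by rw [e, abs_mul, abs_of_pos htt]; ring
      _ ≤ m + n := by linarith [abs_sub δ ε]
      _ = t * (M + D) + 1 / t * (M - D) := by rw [h1, h2]; ring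
      _ ≤ _ := by
        rw [add_mul]
        exact add_le_add (mul_le_mul_of_nonneg_left (by linarith [le_abs_self D]) ht.le)
          (mul_le_mul_of_nonneg_left (by linarith [neg_abs_le D]) (by positivity))

/-- The coefficients of the four support values in the comparison body are nonnegative. -/
theorem comb_convex {t c a₀ a₁ a₂ a₀' a₁' a₂' b₀ b₁ b₂ b₀' b₁' b₂' : ℝ} (ht : 0 < t)
    (ha : 2 * c * a₁ ≤ a₀ + a₂) (ha' : 2 * c * a₁' ≤ a₀' + a₂')
    (hb : 2 * c * b₁ ≤ b₀ + b₂) (hb' : 2 * c * b₁' ≤ b₀' + b₂') :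
    2 * c * (evenS t ((a₁ + a₁') / 2) ((b₁ + b₁') / 2)
        - oddS t ((a₁' - a₁) / 2) ((b₁' - b₁) / 2))
      ≤ (evenS t ((a₀ + a₀') / 2) ((b₀ + b₀') / 2)
          - oddS t ((a₀' - a₀) / 2) ((b₀' - b₀) / 2))
        + (evenS t ((a₂ + a₂') / 2) ((b₂ + b₂') / 2)
          - oddS t ((a₂' - a₂) / 2) ((b₂' - b₂) / 2)) := by
  set α₁ := 1 / (4 * t) + 1 / t / (2 * (t + 1 / t))
  set α₂ := 1 / (4 * t) - 1 / t / (2 * (t + 1 / t))
  set β₁ := t / 4 + t / (2 * (t + 1 / t))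
  set β₂ := t / 4 - t / (2 * (t + 1 / t))
  have e : ∀ a a' b b' : ℝ, evenS t ((a + a') / 2) ((b + b') / 2)
      - oddS t ((a' - a) / 2) ((b' - b) / 2) = α₁ * a + α₂ * a' + β₁ * b + β₂ * b' := by
    intro a a' b b'
    simp only [evenS, oddS, α₁, α₂, β₁, β₂]
    field_simp
    ring
  have h2 : 1 / (2 * (t + 1 / t)) ≤ 1 / 4 := by
    rw [div_le_div_iff₀ (by positivity) (by norm_num), one_mul, one_mul,
      le_iff_exists_nonneg_add]
    exact ⟨2 * (t - 1) ^ 2 / t, by positivity, by field_simp; ring⟩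
  have hα₁ : 0 ≤ α₁ := by positivity
  have hβ₁ : 0 ≤ β₁ := by positivity
  have hα₂ : 0 ≤ α₂ := by
    have : α₂ = 1 / t * (1 / 4 - 1 / (2 * (t + 1 / t))) := by simp only [α₂]; ring
    rw [this]; exact mul_nonneg (by positivity) (by linarith)
  have hβ₂ : 0 ≤ β₂ := by
    have : β₂ = t * (1 / 4 - 1 / (2 * (t + 1 / t))) := by simp only [β₂]; ring
    rw [this]; exact mul_nonneg ht.le (by linarith)
  rw [e, e, e]
  linarith [mul_le_mul_of_nonneg_left ha hα₁, mul_le_mul_of_nonneg_left ha' hα₂,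
    mul_le_mul_of_nonneg_left hb hβ₁, mul_le_mul_of_nonneg_left hb' hβ₂]

/-- The factor lies below one. -/
theorem factor_lt_one {M Φ Y w : ℝ} (hM : 0 < M) (hΦ : 3 * Φ ≤ 11548 / 10000 * M)
    (hY0 : 0 ≤ Y) (hY : 3 * Y ≤ 12474 / 10000 * M) (hw0 : 0 ≤ w) (hw : w ≤ 774 / 10000 * M) :
    62 / 100 * Y ^ 2 + 55 / 10 * w ^ 2 < M * (M - Φ) := by
  nlinarith [mul_le_mul hY hY (by linarith) (by linarith), mul_le_mul hw hw hw0 (by linarith),
    mul_le_mul_of_nonneg_left hΦ hM.le, mul_pos hM hM]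

/-- The area comparison, for the energies. -/
theorem energy_main {T C C4 M Φ Y w p EM ED Ef Er Eφ Ey q lam : ℝ} (hp : 0 ≤ p)
    (hT : T ≤ 17325 / 10000) (hC : 519 / 100 ≤ C) (hC4 : 11 ≤ C4)
    (hlam : lam * (M * (M - Φ)) = 62 / 100 * Y ^ 2 + 55 / 10 * w ^ 2) (hlam0 : 0 ≤ lam)
    (bM : -(p * EM) ≤ 4 * M ^ 2 * T) (bφ : 4 * Φ ^ 2 * C ≤ p * Eφ)
    (by' : 4 * Y ^ 2 * C ≤ p * Ey) (bD : 8 * w ^ 2 * C4 ≤ p * ED)
    (hφ : Eφ = (1 - q ^ 2) * Ef) (hy : Ey ≤ 2 * (q ^ 2 * Ef) + 2 * Er)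
    (hpos : 0 ≤ -(p * (EM + ED + Ef + Er))) :
    -(p * (EM + ED + Ef + Er)) ≤ (1 - lam) ^ 2 * -(p * (EM + Eφ)) := by
  set A := -(p * (EM + Eφ)) with hA
  have gain : 8 * w ^ 2 * C4 + 2 * Y ^ 2 * C ≤ A + p * (EM + ED + Ef + Er) := by
    have h := mul_le_mul_of_nonneg_left hy hp
    have e : p * Eφ = p * Ef - p * (q ^ 2 * Ef) := by rw [hφ]; ring
    simp only [hA]
    linarith
  have h3 := mul_le_mul_of_nonneg_left hC (sq_nonneg Y)
  have h4 := mul_le_mul_of_nonneg_left hC4 (sq_nonneg w)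
  have hA0 : 0 ≤ A := by nlinarith [sq_nonneg w, sq_nonneg Y]
  have hb : A ≤ 4 * (17325 / 10000) * (1102 / 1000) * (M * (M - Φ)) := by
    have h1 : A ≤ 4 * M ^ 2 * T - 4 * Φ ^ 2 * C := by simp only [hA]; linarith
    nlinarith [mul_le_mul_of_nonneg_left hT (sq_nonneg M),
      mul_le_mul_of_nonneg_left hC (sq_nonneg Φ), sq_nonneg (M * 1102 / 1000 - 2 * 299 / 100 * Φ),
      sq_nonneg M, sq_nonneg Φ]
  have h5 := mul_le_mul_of_nonneg_left hb (mul_nonneg zero_le_two hlam0)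
  rw [show 2 * lam * (4 * (17325 / 10000) * (1102 / 1000) * (M * (M - Φ)))
    = 8 * (17325 / 10000) * (1102 / 1000) * (62 / 100 * Y ^ 2 + 55 / 10 * w ^ 2) by
      rw [← hlam]; ring] at h5
  nlinarith [mul_nonneg (sq_nonneg lam) hA0, sq_nonneg Y, sq_nonneg w]

end

end Vale.Agent.P227.Rot
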