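import Vale.Agent.P227.Rot.Planar
import Vale.Agent.P227.Rot.Samples

/-!
# P227, rotations: the area of the sampled slice
-/

namespace Vale.Agent.P227.Rot

open MeasureTheory Set Matrix Real Finset
open scoped ENNReal

noncomputable section

/-- The constraints of the slice at equally spaced directions. -/
def rotPoly (P Q : Set (Fin 2 → ℝ)) (θ : ℝ) : Set (Fin 2 → ℝ) :=
  {x | ∀ i : ℤ, ∀ a : ℝ, dir (i * θ) ⬝ᵥ x + a ≤
    √(max (supp P (dir (i * θ)) + a) (supp P (-dir (i * θ)) - a)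
      * max (supp Q (dir (i * θ)) + a) (supp Q (-dir (i * θ)) - a))}

variable {p : ℕ} {P Q : Set (Fin 2 → ℝ)}

/-- The scale and the extreme values of the samples. -/
theorem scale_data (hp : Odd p) (hp3 : 3 ≤ p) (hP : RotBody p P) (hQ : RotBody p Q)
    (hPv : volume P ≠ 0) (hQv : volume Q ≠ 0) {k : ℕ} (hk : 1 ≤ k) {θ : ℝ}
    (hsh : ∀ i : ℤ, ((i + k : ℤ) : ℝ) * θ = i * θ + π / p) :
    ∃ (t M0 Φ Y w : ℝ) (i₀ iφ iy j₁ j₂ : ℤ), 0 < t ∧ 0 < M0 ∧ 0 ≤ Φ ∧ 0 ≤ Y ∧ 0 ≤ w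
      ∧ evenS t (mE p P (i₀ * θ)) (mE p Q (i₀ * θ)) = M0
      ∧ |oddS t (dO p P (iφ * θ)) (dO p Q (iφ * θ))| = Φ
      ∧ |defS t (dO p P (iy * θ)) (dO p Q (iy * θ))| = Y
      ∧ diffS t (mE p P (j₁ * θ)) (mE p Q (j₁ * θ)) = w
      ∧ diffS t (mE p P (j₂ * θ)) (mE p Q (j₂ * θ)) = -w
      ∧ 3 * Φ ≤ 11548 / 10000 * M0 ∧ 3 * Y ≤ 12474 / 10000 * M0 ∧ w ≤ 774 / 10000 * M0
      ∧ ∀ i : ℤ, M0 ≤ evenS t (mE p P (i * θ)) (mE p Q (i * θ))
        ∧ |oddS t (dO p P (i * θ)) (dO p Q (i * θ))| ≤ Φ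
        ∧ |defS t (dO p P (i * θ)) (dO p Q (i * θ))| ≤ Y
        ∧ |diffS t (mE p P (i * θ)) (mE p Q (i * θ))| ≤ w := by
  set m : ℤ → ℝ := fun i => mE p P (i * θ) with hm
  set n : ℤ → ℝ := fun i => mE p Q (i * θ) with hn
  have mk : ∀ i, m (i + k) = m i := fun i => by
    simp only [hm, hsh]; exact mE_add hp.pos hP _
  have nk : ∀ i, n (i + k) = n i := fun i => by
    simp only [hn, hsh]; exact mE_add hp.pos hQ _
  have mpos : ∀ i, 0 < m i := fun i => mE_pos hp hp3 hP hPv _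
  have npos : ∀ i, 0 < n i := fun i => mE_pos hp hp3 hQ hQv _
  obtain ⟨σ, hσ, i₁, hi₁, i₂, hi₂, hbal⟩ := exists_balance (n := k) (by omega)
    (U := fun e => m e) (V := fun e => n e) (fun e => mpos e) (fun e => npos e)
  set t := 1 / σ with ht
  have ht0 : 0 < t := by positivity
  set Mf : ℤ → ℝ := fun i => evenS t (m i) (n i) with hMf
  set Df : ℤ → ℝ := fun i => diffS t (m i) (n i) with hDf
  set φ : ℤ → ℝ := fun i => |oddS t (dO p P (i * θ)) (dO p Q (i * θ))| with hφ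
  set y : ℤ → ℝ := fun i => |defS t (dO p P (i * θ)) (dO p Q (i * θ))| with hy
  have Deq : ∀ i, Df i = (σ * m i - n i / σ) / 2 := fun i => by
    simp only [hDf, diffS, ht]; field_simp
  have Meq : ∀ i, Mf i = (σ * m i + n i / σ) / 2 := fun i => by
    simp only [hMf, evenS, ht]; field_simp
  have φk : ∀ i, φ (i + k) = φ i := fun i => by
    simp only [hφ, hsh, dO_add hp.pos hP, dO_add hp.pos hQ]
    rw [← abs_neg (oddS t (dO p P _) (dO p Q _))]
    congr 1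
    simp only [oddS]; ring
  have yk : ∀ i, y (i + k) = y i := fun i => by
    simp only [hy, hsh, dO_add hp.pos hP, dO_add hp.pos hQ]
    rw [← abs_neg (defS t (dO p P _) (dO p Q _))]
    congr 1
    simp only [defS]; ring
  have red : ∀ i : ℤ, ∃ e < k, m i = m e ∧ n i = n e ∧ φ i = φ e ∧ y i = y e := by
    intro i
    obtain ⟨e, he⟩ := Int.eq_ofNat_of_zero_le (Int.emod_nonneg i (show (k : ℤ) ≠ 0 by omega))
    have hek : e < k := by
      have := Int.emod_lt_of_pos i (show (0 : ℤ) < k by omega); omega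
    have hi : i = (e : ℤ) + i / k * k := by linarith [Int.emod_add_mul_ediv i (k : ℤ)]
    have P0 : ∀ f : ℤ → ℝ, (∀ i, f (i + k) = f i) → f i = f e := fun f hf => by
      have h := (show Function.Periodic f (k : ℤ) from hf).int_mul (i / k) e
      rwa [Int.cast_id, ← hi] at h
    exact ⟨e, hek, P0 m mk, P0 n nk, P0 φ φk, P0 y yk⟩
  have hne : (Finset.range k).Nonempty := ⟨0, Finset.mem_range.2 hk⟩
  obtain ⟨e₀, -, hM0⟩ := (Finset.range k).exists_min_image (fun e : ℕ => Mf e) hne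
  obtain ⟨eφ, -, hΦ⟩ := (Finset.range k).exists_max_image (fun e : ℕ => φ e) hne
  obtain ⟨ey, -, hY⟩ := (Finset.range k).exists_max_image (fun e : ℕ => y e) hne
  have bnd : ∀ i, Mf e₀ ≤ Mf i ∧ φ i ≤ φ eφ ∧ y i ≤ y ey ∧ |Df i| ≤ Df i₁ := by
    intro i
    obtain ⟨e, he, h1, h2, h3, h4⟩ := red i
    obtain ⟨hb1, hb2, hb3⟩ := hbal e he
    refine ⟨?_, h3 ▸ hΦ e (Finset.mem_range.2 he), h4 ▸ hY e (Finset.mem_range.2 he), ?_⟩
    · have : Mf i = Mf e := by simp only [hMf, h1, h2]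
      exact this ▸ hM0 e (Finset.mem_range.2 he)
    · rw [Deq, Deq, h1, h2, abs_le]
      constructor <;> linarith
  have hw0 : 0 ≤ Df i₁ := (abs_nonneg _).trans (bnd 0).2.2.2
  have mr : ∀ i j, m i ≤ 11548 / 10000 * m j := fun i j => mE_range hp hp3 hP hPv _ _
  have nr : ∀ i j, n i ≤ 11548 / 10000 * n j := fun i j => mE_range hp hp3 hQ hQv _ _
  have hr : ∀ i, Mf i ≤ 11548 / 10000 * Mf e₀ := fun i => by
    have h1 := mul_le_mul_of_nonneg_left (mr i e₀) hσ.le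
    have h2 := div_le_div_of_nonneg_right (nr i e₀) hσ.le
    have e : 11548 / 10000 * n e₀ / σ = 11548 / 10000 * (n e₀ / σ) := by ring
    rw [Meq, Meq]
    linarith
  have hwM : Df i₁ ≤ 774 / 10000 * Mf e₀ := by
    have := mr i₁ i₂; have := nr i₂ i₁; have := mr i₁ e₀; have := nr i₂ e₀
    have := mpos i₁; have := npos i₂; have := mpos i₂; have := npos i₁
    have h := (hbal i₁ hi₁).2.2
    have e : 4 * Df i₁ = σ * (m i₁ - m i₂) + (n i₂ - n i₁) / σ := by
      rw [Deq]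
      have e1 : (n i₂ - n i₁) / σ = n i₂ / σ - n i₁ / σ := by ring
      linarith
    have h1 : σ * (m i₁ - m i₂) ≤ σ * (1548 / 10000 * m e₀) :=
      mul_le_mul_of_nonneg_left (by linarith) hσ.le
    have h2 : (n i₂ - n i₁) / σ ≤ (1548 / 10000 * n e₀) / σ :=
      div_le_div_of_nonneg_right (by linarith) hσ.le
    have e2 : (1548 / 10000 * n e₀) / σ = 1548 / 10000 * (n e₀ / σ) := by ring
    rw [Meq]
    linarith
  have sb := fun i : ℤ => sample_bounds ht0 (mpos i) (npos i)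
    (abs_dO_le hp hp3 hP hPv (i * θ)) (abs_dO_le hp hp3 hQ hQv (i * θ))
  refine ⟨t, Mf e₀, φ eφ, y ey, Df i₁, e₀, eφ, ey, i₁, i₂, ht0, (sb e₀).1, abs_nonneg _,
    abs_nonneg _, hw0, rfl, rfl, rfl, rfl, ?_, (sb eφ).2.1.trans (hr eφ), ?_, hwM, bnd⟩
  · show Df i₂ = -Df i₁
    have := (hbal i₁ hi₁).2.2
    rw [Deq, Deq]
    linarith
  · exact ((sb ey).2.2).trans (by linarith [hr ey, (bnd ey).2.2.2.trans hwM])

/-- The comparison polygon lies in the sampled slice. -/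
theorem poly_sub (hp : Odd p) (hP : RotBody p P) (hQ : RotBody p Q) {θ t M0 Φ Y w lam : ℝ}
    (ht : 0 < t) (hM0 : 0 < M0) (hwM : w ≤ 774 / 10000 * M0) (hlam0 : 0 ≤ lam)
    (hlam : lam * (M0 * (M0 - Φ)) = 62 / 100 * Y ^ 2 + 55 / 10 * w ^ 2)
    (hy : ∀ i : ℤ, 3 * |defS t (dO p P (i * θ)) (dO p Q (i * θ))|
      ≤ evenS t (mE p P (i * θ)) (mE p Q (i * θ))
        + |diffS t (mE p P (i * θ)) (mE p Q (i * θ))|)
    (bnd : ∀ i : ℤ, M0 ≤ evenS t (mE p P (i * θ)) (mE p Q (i * θ))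
        ∧ |oddS t (dO p P (i * θ)) (dO p Q (i * θ))| ≤ Φ
        ∧ |defS t (dO p P (i * θ)) (dO p Q (i * θ))| ≤ Y
        ∧ |diffS t (mE p P (i * θ)) (mE p Q (i * θ))| ≤ w) :
    poly θ (fun i => (1 - lam) * (evenS t (mE p P (i * θ)) (mE p Q (i * θ))
      - oddS t (dO p P (i * θ)) (dO p Q (i * θ)))) ⊆ rotPoly P Q θ := by
  intro x hx i a
  have hxi : dir (i * θ) ⬝ᵥ x ≤ (1 - lam) * (evenS t (mE p P (i * θ)) (mE p Q (i * θ))
      - oddS t (dO p P (i * θ)) (dO p Q (i * θ))) := hx i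
  obtain ⟨b1, b2, b3, b4⟩ := bnd i
  have hy' := hy i
  have hπ : ∀ A, RotBody p A → supp A (-dir (i * θ)) = hA A (i * θ + π / p) := fun A hA' => by
    rw [← hA_pi hp hA']
    simp [hA, dir, cos_add_pi, sin_add_pi]
  have hmax : ∀ A B : ℝ, max (A + a) (B - a) = (A + B) / 2 + |a - (B - A) / 2| := fun A B => by
    rcases le_total (B - a) (A + a) with h | h
    · rw [max_eq_left h, abs_of_nonneg (by linarith)]; ring
    · rw [max_eq_right h, abs_of_nonpos (by linarith)]; ring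
  rw [hπ P hP, hπ Q hQ, hmax, hmax]
  show _ ≤ √((mE p P (i * θ) + |a - dO p P (i * θ)|) * (mE p Q (i * θ) + |a - dO p Q (i * θ)|))
  obtain ⟨h1, h2, h3, h4⟩ := sample_id (m := mE p P (i * θ)) (n := mE p Q (i * θ))
    (δ := dO p P (i * θ)) (ε := dO p Q (i * θ)) ht
  set M := evenS t (mE p P (i * θ)) (mE p Q (i * θ))
  set D := diffS t (mE p P (i * θ)) (mE p Q (i * θ))
  set y := defS t (dO p P (i * θ)) (dO p Q (i * θ))
  set φ := oddS t (dO p P (i * θ)) (dO p Q (i * θ))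
  set N := 62 / 100 * Y ^ 2 + 55 / 10 * w ^ 2
  set L := (62 / 100 * y ^ 2 + 55 / 10 * D ^ 2) / M
  rw [h1, h2, h3, h4]
  have hpt := pointwise (φ := φ) (L := L) ht (by linarith) (b4.trans (by linarith)) hy'
    (mul_div_cancel₀ _ (by linarith)) a
  have hn : 62 / 100 * y ^ 2 + 55 / 10 * D ^ 2 ≤ N := by
    have := sq_abs y; have := sq_abs D
    simp only [N]
    nlinarith [mul_le_mul b3 b3 (abs_nonneg _) ((abs_nonneg _).trans b3),
      mul_le_mul b4 b4 (abs_nonneg _) ((abs_nonneg _).trans b4)]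
  have hL : L ≤ lam * (M - φ) := by
    calc L ≤ N / M0 := div_le_div₀ (by positivity) hn hM0 b1
      _ = lam * (M0 - Φ) := by rw [div_eq_iff hM0.ne', ← hlam]; ring
      _ ≤ _ := mul_le_mul_of_nonneg_left (by linarith [le_abs_self φ]) hlam0
  linarith

theorem mul_le_sq_of_mean {u v X : ℝ} (hu : 0 < u) (hv : 0 < v) (h : (u + v) / 2 ≤ X) :
    u * v ≤ X ^ 2 := by
  have h1 := pow_le_pow_left₀ (by linarith : (0 : ℝ) ≤ (u + v) / 2) h 2
  nlinarith [sq_nonneg (u - v)]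

/-- The parallelogram identities of the samples. -/
theorem sample_forms {θ : ℝ} (hθ : 0 < θ) {k : ℕ} (hk : 1 ≤ k) (hL : k * θ < π)
    {δ ε : ℤ → ℝ} (m n : ℤ → ℝ) (δk : ∀ i, δ (i + k) = -δ i) (εk : ∀ i, ε (i + k) = -ε i)
    {t : ℝ} (ht : 0 < t) :
    ∃ Ef Er q : ℝ,
      (1 / t) ^ 2 * energy θ m 0 (2 * k) + t ^ 2 * energy θ n 0 (2 * k)
          = 2 * energy θ (fun i => evenS t (m i) (n i)) 0 (2 * k)
            + 2 * energy θ (fun i => diffS t (m i) (n i)) 0 (2 * k)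
      ∧ (1 / t) ^ 2 * energy θ δ 0 (2 * k) + t ^ 2 * energy θ ε 0 (2 * k) = 2 * Ef + 2 * Er
      ∧ energy θ (fun i => oddS t (δ i) (ε i)) 0 (2 * k) = (1 - q ^ 2) * Ef
      ∧ energy θ (fun i => defS t (δ i) (ε i)) 0 (2 * k) ≤ 2 * (q ^ 2 * Ef) + 2 * Er := by
  have hpg := fun A B => energy_parallelogram (θ := θ) A B 0 (2 * k)
  have hsm := fun c A => energy_smul (θ := θ) c A 0 (2 * k)
  refine ⟨energy θ (fun i => (δ i / t + t * ε i) / 2) 0 (2 * k),
    energy θ (fun i => (δ i / t - t * ε i) / 2) 0 (2 * k), (t - 1 / t) / (t + 1 / t),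
      ?_, ?_, ?_, ?_⟩
  · have h := hpg (fun i => evenS t (m i) (n i)) (fun i => diffS t (m i) (n i))
    rw [show (fun i => evenS t (m i) (n i) + diffS t (m i) (n i)) = fun i => (1 / t) * m i by
        funext i; simp only [evenS, diffS]; ring,
      show (fun i => evenS t (m i) (n i) - diffS t (m i) (n i)) = fun i => t * n i by
        funext i; simp only [evenS, diffS]; ring, hsm, hsm] at h
    exact h
  · have h := hpg (fun i => (δ i / t + t * ε i) / 2) (fun i => (δ i / t - t * ε i) / 2)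
    rw [show (fun i => (δ i / t + t * ε i) / 2 + (δ i / t - t * ε i) / 2)
          = fun i => (1 / t) * δ i by funext i; ring,
      show (fun i => (δ i / t + t * ε i) / 2 - (δ i / t - t * ε i) / 2) = fun i => t * ε i by
        funext i; ring, hsm, hsm] at h
    exact h
  · have hp0 : 1 - ((t - 1 / t) / (t + 1 / t)) ^ 2 = (2 / (t + 1 / t)) ^ 2 := by field_simp; ring
    rw [hp0, ← hsm]
    congr 1
    funext i
    simp only [oddS]
    ring
  · set q := (t - 1 / t) / (t + 1 / t) with hq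
    have h := hpg (fun i => q * ((δ i / t + t * ε i) / 2)) (fun i => (δ i / t - t * ε i) / 2)
    rw [show (fun i => q * ((δ i / t + t * ε i) / 2) + (δ i / t - t * ε i) / 2)
          = fun i => defS t (δ i) (ε i) by
      funext i; simp only [hq, defS]; field_simp; ring, hsm] at h
    have hn : 0 ≤ energy θ (fun i => q * ((δ i / t + t * ε i) / 2) - (δ i / t - t * ε i) / 2)
        0 (2 * k) := odd_nonneg hθ hk hL fun i => by simp only [δk, εk]; ring
    linarith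

/-- The energies of the samples satisfy the main comparison. -/
theorem sample_energy {θ : ℝ} (hθ : 0 < θ) {k : ℕ} (hk : 1 ≤ k) (hL : k * θ < π)
    {m n δ ε : ℤ → ℝ} (mk : ∀ i, m (i + k) = m i) (nk : ∀ i, n (i + k) = n i)
    (δk : ∀ i, δ (i + k) = -δ i) (εk : ∀ i, ε (i + k) = -ε i)
    {p T C C4 t M0 Φ Y w lam : ℝ} {i₀ iφ iy j₁ j₂ : ℤ} (hp : 0 ≤ p) (ht : 0 < t)
    (hT : T ≤ 17325 / 10000) (hC : 519 / 100 ≤ C) (hC4 : 11 ≤ C4)
    (eT : T = p * (sin (k * θ / 2) / cos (k * θ / 2)))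
    (eC : C = p * (cos (k * θ / 2) / sin (k * θ / 2)))
    (eC4 : C4 = p * (cos (k * θ / 4) / sin (k * θ / 4)))
    (e0 : evenS t (m i₀) (n i₀) = M0) (eφ : |oddS t (δ iφ) (ε iφ)| = Φ)
    (ey : |defS t (δ iy) (ε iy)| = Y)
    (e1 : diffS t (m j₁) (n j₁) = w) (e2 : diffS t (m j₂) (n j₂) = -w)
    (hlam : lam * (M0 * (M0 - Φ)) = 62 / 100 * Y ^ 2 + 55 / 10 * w ^ 2) (hlam0 : 0 ≤ lam)
    (hP : 0 < -(p * (energy θ m 0 (2 * k) + energy θ δ 0 (2 * k))))
    (hQ : 0 < -(p * (energy θ n 0 (2 * k) + energy θ ε 0 (2 * k)))) :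
    -(p * (energy θ m 0 (2 * k) + energy θ δ 0 (2 * k)))
        * -(p * (energy θ n 0 (2 * k) + energy θ ε 0 (2 * k)))
      ≤ ((1 - lam) ^ 2 * -(p * (energy θ (fun i => evenS t (m i) (n i)) 0 (2 * k)
        + energy θ (fun i => oddS t (δ i) (ε i)) 0 (2 * k)))) ^ 2
      ∧ 0 ≤ (1 - lam) ^ 2 * -(p * (energy θ (fun i => evenS t (m i) (n i)) 0 (2 * k)
        + energy θ (fun i => oddS t (δ i) (ε i)) 0 (2 * k))) := by
  set Mf : ℤ → ℝ := fun i => evenS t (m i) (n i) with hMf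
  set Df : ℤ → ℝ := fun i => diffS t (m i) (n i) with hDf
  set φ : ℤ → ℝ := fun i => oddS t (δ i) (ε i) with hφ
  set y : ℤ → ℝ := fun i => defS t (δ i) (ε i) with hy
  obtain ⟨Ef, Er, q, id1, id2, id3, id4⟩ := sample_forms hθ hk hL m n δk εk ht
  have bM : -(p * energy θ Mf 0 (2 * k)) ≤ 4 * M0 ^ 2 * T := by
    have := mul_le_mul_of_nonneg_left
      (even_bound hθ hk hL (X := Mf) (fun i => by simp only [hMf, mk, nk]) i₀) hp
    rw [show Mf i₀ = M0 from e0] at this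
    rw [eT]; linarith
  have bφ : 4 * Φ ^ 2 * C ≤ p * energy θ φ 0 (2 * k) := by
    have := mul_le_mul_of_nonneg_left (odd_bound hθ hk hL (X := φ)
      (fun i => by simp only [hφ, oddS, δk, εk]; ring) iφ) hp
    rw [← eφ, sq_abs]
    rw [eC]; linarith
  have by' : 4 * Y ^ 2 * C ≤ p * energy θ y 0 (2 * k) := by
    have := mul_le_mul_of_nonneg_left (odd_bound hθ hk hL (X := y)
      (fun i => by simp only [hy, defS, δk, εk]; ring) iy) hp
    rw [← ey, sq_abs]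
    rw [eC]; linarith
  have bD : 8 * w ^ 2 * C4 ≤ p * energy θ Df 0 (2 * k) := by
    have := mul_le_mul_of_nonneg_left
      (range_bound hθ hk hL (X := Df) (fun i => by simp only [hDf, mk, nk]) e1 e2) hp
    rw [eC4]; linarith
  set AP := -(p * (energy θ m 0 (2 * k) + energy θ δ 0 (2 * k))) with hAP
  set AQ := -(p * (energy θ n 0 (2 * k) + energy θ ε 0 (2 * k))) with hAQ
  have avg : (1 / t) ^ 2 * AP + t ^ 2 * AQ = 2 *
      -(p * (energy θ Mf 0 (2 * k) + energy θ Df 0 (2 * k) + Ef + Er)) := by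
    have : (1 / t) ^ 2 * AP + t ^ 2 * AQ =
        -(p * (((1 / t) ^ 2 * energy θ m 0 (2 * k) + t ^ 2 * energy θ n 0 (2 * k))
        + ((1 / t) ^ 2 * energy θ δ 0 (2 * k) + t ^ 2 * energy θ ε 0 (2 * k)))) := by
      simp only [hAP, hAQ]; ring
    rw [this, id1, id2]; ring
  have hu : 0 < (1 / t) ^ 2 * AP := mul_pos (by positivity) hP
  have hv : 0 < t ^ 2 * AQ := mul_pos (by positivity) hQ
  have key := energy_main hp hT hC hC4 hlam hlam0 bM bφ by' bD id3 id4 (by linarith)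
  have e : (1 / t) ^ 2 * AP * (t ^ 2 * AQ) = AP * AQ := by field_simp
  refine ⟨?_, le_trans (by linarith) key⟩
  show AP * AQ ≤ ((1 - lam) ^ 2 * -(p * (energy θ Mf 0 (2 * k) + energy θ φ 0 (2 * k)))) ^ 2
  rw [← e]
  exact mul_le_sq_of_mean hu hv (by linarith)

theorem rotPoly_area (hp : Odd p) (hp3 : 3 ≤ p) (hP : RotBody p P) (hQ : RotBody p Q)
    (hPv : volume P ≠ 0) (hQv : volume Q ≠ 0) {k : ℕ} (hk : 1 ≤ k) :
    volume P * volume Q ≤ volume (rotPoly P Q (π / (p * k))) ^ 2 := by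
  have hp' : (3 : ℝ) ≤ p := by exact_mod_cast hp3
  have hk' : (1 : ℝ) ≤ k := by exact_mod_cast hk
  set θ := π / (p * k : ℝ) with hθdef
  have hθ : 0 < θ := by positivity
  have hkθ : (k : ℝ) * θ = π / p := by rw [hθdef]; field_simp
  have hL : (k : ℝ) * θ < π := by
    rw [hkθ, div_lt_iff₀ (by linarith)]; nlinarith [pi_pos]
  have hM : ((p * k : ℕ) : ℝ) * θ = π := by
    rw [Nat.cast_mul, mul_assoc, hkθ]; field_simp
  have hsh : ∀ i : ℤ, ((i + k : ℤ) : ℝ) * θ = i * θ + π / p := fun i => by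
    push_cast; rw [add_mul, hkθ]
  obtain ⟨hT, hC, hC4⟩ := trig_bounds hp hp3
  rw [← hkθ] at hT hC hC4
  obtain ⟨t, M0, Φ, Y, w, i₀, iφ, iy, j₁, j₂, ht, hM00, hΦ0, hY0, hw0, e0, eφ, ey, e1, e2, hΦM,
    hYM, hwM, bnd⟩ := scale_data hp hp3 hP hQ hPv hQv hk hsh
  have hgap : 0 < M0 - Φ := by linarith
  set lam := (62 / 100 * Y ^ 2 + 55 / 10 * w ^ 2) / (M0 * (M0 - Φ))
  have hlam : lam * (M0 * (M0 - Φ)) = 62 / 100 * Y ^ 2 + 55 / 10 * w ^ 2 :=
    div_mul_cancel₀ _ (mul_pos hM00 hgap).ne'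
  have hlam0 : 0 ≤ lam := div_nonneg (by positivity) (mul_pos hM00 hgap).le
  have hlam1 : lam < 1 := by
    rw [div_lt_one (mul_pos hM00 hgap)]
    exact factor_lt_one hM00 hΦM hY0 hYM hw0 hwM
  set m : ℤ → ℝ := fun i => mE p P (i * θ) with hm
  set n : ℤ → ℝ := fun i => mE p Q (i * θ) with hn
  set δ : ℤ → ℝ := fun i => dO p P (i * θ) with hδ
  set ε : ℤ → ℝ := fun i => dO p Q (i * θ) with hε
  have mk : ∀ i, m (i + k) = m i := fun i => by
    simp only [hm, hsh]; exact mE_add hp.pos hP _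
  have nk : ∀ i, n (i + k) = n i := fun i => by
    simp only [hn, hsh]; exact mE_add hp.pos hQ _
  have δk : ∀ i, δ (i + k) = -δ i := fun i => by
    simp only [hδ, hsh]; exact dO_add hp.pos hP _
  have εk : ∀ i, ε (i + k) = -ε i := fun i => by
    simp only [hε, hsh]; exact dO_add hp.pos hQ _
  have sb := fun i : ℤ => sample_bounds ht (mE_pos hp hp3 hP hPv (i * θ))
    (mE_pos hp hp3 hQ hQv (i * θ)) (abs_dO_le hp hp3 hP hPv (i * θ))
    (abs_dO_le hp hp3 hQ hQv (i * θ))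
  set Mf : ℤ → ℝ := fun i => evenS t (m i) (n i) with hMf
  set φ : ℤ → ℝ := fun i => oddS t (δ i) (ε i) with hφ
  have Mk : ∀ i, Mf (i + k) = Mf i := fun i => by simp only [hMf, mk, nk]
  have φk : ∀ i, φ (i + k) = -φ i := fun i => by simp only [hφ, oddS, δk, εk]; ring
  set X : ℤ → ℝ := fun i => (1 - lam) * (Mf i - φ i) with hX
  have sub : poly θ X ⊆ rotPoly P Q θ :=
    poly_sub hp hP hQ ht hM00 hwM hlam0 hlam (fun i => (sb i).2.2) bnd
  have per2 : ∀ U V : ℤ → ℝ, (∀ i, U (i + k) = U i) → (∀ i, V (i + k) = -V i) →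
      ∀ i, U (i + (2 * k : ℕ)) - V (i + (2 * k : ℕ)) = U i - V i := fun U V hU hV i => by
    push_cast
    rw [show i + 2 * (k : ℤ) = i + k + k by ring, hU, hU, hV, hV, neg_neg]
  have big : ∀ U V : ℤ → ℝ, (∀ i, U (i + k) = U i) → (∀ i, V (i + k) = -V i) →
      energy θ (fun i => U i - V i) 0 (2 * (p * k))
        = p * (energy θ U 0 (2 * k) + energy θ V 0 (2 * k)) := fun U V hU hV => by
    rw [show 2 * (p * k) = p * (2 * k) by ring, energy_periodic_mul (per2 U V hU hV),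
      energy_parity hU hV]
  have hXper : ∀ i, X (i + 2 * (p * k : ℕ)) = X i := by
    have hper : Function.Periodic X (2 * (k : ℤ)) := fun i => by
      simp only [hX]
      rw [show i + 2 * (k : ℤ) = i + k + k by ring, Mk, Mk, φk, φk, neg_neg]
    intro i
    have := hper.int_mul (p : ℤ) i
    push_cast at this ⊢
    rw [show i + 2 * ((p : ℤ) * k) = i + (p : ℤ) * (2 * k) by ring]
    exact this
  have hXpos : ∀ i, 0 < X i := fun i => by
    refine mul_pos (sub_pos.2 hlam1) ?_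
    have := (sb i).1; have := (sb i).2.1; have := le_abs_self (φ i)
    simp only [hMf, hφ, hm, hn, hδ, hε] at *
    linarith
  have hXconv : ∀ i, 2 * cos θ * X i ≤ X (i - 1) + X (i + 1) := by
    intro i
    have c2 := hA_convex hP (i * θ + π / p) θ
    have c4 := hA_convex hQ (i * θ + π / p) θ
    rw [show (i : ℝ) * θ + π / p - θ = i * θ - θ + π / p by ring,
      show (i : ℝ) * θ + π / p + θ = i * θ + θ + π / p by ring] at c2 c4
    have h := comb_convex ht (hA_convex hP (i * θ) θ) c2 (hA_convex hQ (i * θ) θ) c4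
    have h' := mul_le_mul_of_nonneg_left h (sub_nonneg.2 hlam1.le)
    simp only [hX, hMf, hφ, hm, hn, hδ, hε, mE, dO]
    push_cast
    rw [sub_mul (i : ℝ) (1 : ℝ) θ, one_mul, add_mul (i : ℝ) (1 : ℝ) θ, one_mul]
    linarith
  have areaP : volume P ≤ ENNReal.ofReal
      (-((p : ℝ) * (energy θ m 0 (2 * k) + energy θ δ 0 (2 * k))) / 2) := by
    refine (volume_le hp hp3 hP hPv hk).trans (le_of_eq ?_)
    rw [show (fun i : ℤ => hA P (i * θ)) = fun i => m i - δ i by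
      funext i; simp only [hm, hδ, mE, dO]; ring, big m δ mk δk]
  have areaQ : volume Q ≤ ENNReal.ofReal
      (-((p : ℝ) * (energy θ n 0 (2 * k) + energy θ ε 0 (2 * k))) / 2) := by
    refine (volume_le hp hp3 hQ hQv hk).trans (le_of_eq ?_)
    rw [show (fun i : ℤ => hA Q (i * θ)) = fun i => n i - ε i by
      funext i; simp only [hn, hε, mE, dO]; ring, big n ε nk εk]
  have areaX : ENNReal.ofReal ((1 - lam) ^ 2
      * -((p : ℝ) * (energy θ Mf 0 (2 * k) + energy θ φ 0 (2 * k))) / 2)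
      ≤ volume (rotPoly P Q θ) := by
    refine le_trans (le_of_eq ?_) (measure_mono sub)
    rw [volume_poly (M := p * k)
      (le_trans (show 2 ≤ 3 * 1 by norm_num) (Nat.mul_le_mul hp3 hk)) hM hXper hXpos hXconv]
    congr 1
    rw [energy_smul, big Mf φ Mk φk]
    ring
  set AP := -((p : ℝ) * (energy θ m 0 (2 * k) + energy θ δ 0 (2 * k)))
  set AQ := -((p : ℝ) * (energy θ n 0 (2 * k) + energy θ ε 0 (2 * k)))
  have hAP0 : 0 < AP := by
    by_contra! h
    refine hPv (nonpos_iff_eq_zero.1 (areaP.trans (le_of_eq (ENNReal.ofReal_of_nonpos ?_))))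
    linarith
  have hAQ0 : 0 < AQ := by
    by_contra! h
    refine hQv (nonpos_iff_eq_zero.1 (areaQ.trans (le_of_eq (ENNReal.ofReal_of_nonpos ?_))))
    linarith
  obtain ⟨key, key0⟩ := sample_energy hθ hk hL mk nk δk εk (Nat.cast_nonneg p) ht hT hC hC4
    rfl rfl rfl e0 eφ ey e1 e2 hlam hlam0 hAP0 hAQ0
  set AX := (1 - lam) ^ 2 * -((p : ℝ) * (energy θ Mf 0 (2 * k) + energy θ φ 0 (2 * k)))
  calc volume P * volume Q ≤ ENNReal.ofReal (AP / 2) * ENNReal.ofReal (AQ / 2) :=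
        mul_le_mul' areaP areaQ
    _ = ENNReal.ofReal (AP / 2 * (AQ / 2)) := (ENNReal.ofReal_mul (by linarith)).symm
    _ ≤ ENNReal.ofReal ((AX / 2) ^ 2) := ENNReal.ofReal_le_ofReal (by nlinarith)
    _ = ENNReal.ofReal (AX / 2) ^ 2 := ENNReal.ofReal_pow (by linarith) 2
    _ ≤ _ := pow_le_pow_left' areaX 2

end

end Vale.Agent.P227.Rot
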