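import Vale.Agent.P227.Rot.Space

/-!
# P227, rotations: every linear symmetry of a pair in space

A linear symmetry of a body is orthogonal in suitable coordinates; up to sign it is a rotation,
and a closed group of rotations contains the half turn or is generated by one of odd order.
-/

namespace Vale.Agent.P227.Rot

open MeasureTheory Set Matrix Real Function
open scoped ENNReal MatrixOrder

noncomputable section

abbrev Mat3 : Type := Matrix (Fin 3) (Fin 3) ℝ

/-- The image of a set under a matrix. -/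
def mimg (A : Mat3) (K : Set (Fin 3 → ℝ)) : Set (Fin 3 → ℝ) := (A *ᵥ ·) '' K

theorem mimg_mul (A B : Mat3) (K : Set (Fin 3 → ℝ)) : mimg (A * B) K = mimg A (mimg B K) := by
  simp only [mimg, Set.image_image, Matrix.mulVec_mulVec]

theorem mimg_one (K : Set (Fin 3 → ℝ)) : mimg 1 K = K := by
  simp [mimg]

theorem volume_mimg (A : Mat3) (K : Set (Fin 3 → ℝ)) :
    volume (mimg A K) = ENNReal.ofReal |A.det| * volume K := by
  have h := Measure.addHaar_image_linearMap volume (Matrix.toLin' A) K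
  rwa [LinearMap.det_toLin'] at h

theorem ctr_mimg {K : Set (Fin 3 → ℝ)} (hK : Ctr K) (A : Mat3) : Ctr (mimg A K) where
  compact := hK.compact.image (Matrix.toLin' A).continuous_of_finiteDimensional
  convex := hK.convex.linear_image (Matrix.toLin' A)
  nonempty := hK.nonempty.image _
  neg_mem := by
    rintro _ ⟨x, hx, rfl⟩
    exact ⟨-x, hK.neg_mem x hx, Matrix.mulVec_neg x A⟩

/-- A symmetry preserves the matrix of second moments. -/
theorem exists_orth {K : Set (Fin 3 → ℝ)} (hK : Ctr K) (hKv : volume K ≠ 0) {G : Mat3}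
    (hG : mimg G K = K) : G.det ≠ 0 ∧ ∃ B : Mat3, IsUnit B
      ∧ G * (Bᵀ * B) * Gᵀ = Bᵀ * B := by
  have hfin : volume K ≠ ⊤ := hK.compact.measure_lt_top.ne
  have habs : |G.det| = 1 := by
    have h := volume_mimg G K
    rw [hG] at h
    have h' := congrArg ENNReal.toReal h
    rw [ENNReal.toReal_mul, ENNReal.toReal_ofReal (abs_nonneg _)] at h'
    have hv : 0 < (volume K).toReal := ENNReal.toReal_pos hKv hfin
    nlinarith
  have hdet : G.det ≠ 0 := fun h => by simp [h] at habs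
  refine ⟨hdet, ?_⟩
  set f : (Fin 3 → ℝ) →ₗ[ℝ] (Fin 3 → ℝ) := Matrix.toLin' G
  have hf : LinearMap.det f ≠ 0 := by simpa [f, LinearMap.det_toLin'] using hdet
  have hmp : MeasurePreserving f volume volume := by
    refine ⟨f.continuous_of_finiteDimensional.measurable, ?_⟩
    rw [Measure.map_linearMap_addHaar_eq_smul_addHaar volume hf, LinearMap.det_toLin', abs_inv,
      habs, inv_one, ENNReal.ofReal_one, one_smul]
  have hinj : Injective f := (LinearMap.equivOfDetNeZero f hf).injective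
  have hemb : MeasurableEmbedding f :=
    f.continuous_of_finiteDimensional.measurableEmbedding hinj
  have hpre : f ⁻¹' K = K := by
    have : f '' K = K := hG
    conv_lhs => rw [← this]
    exact hinj.preimage_image K
  set S : Mat3 := Matrix.of fun i j => ∫ x in K, x i * x j
  have hint : ∀ i j, IntegrableOn (fun x : Fin 3 → ℝ => x i * x j) K volume := fun i j =>
    ((continuous_apply i).mul (continuous_apply j)).continuousOn.integrableOn_compact hK.compact
  have hbil : ∀ u v : Fin 3 → ℝ, ∫ x in K, (u ⬝ᵥ x) * (v ⬝ᵥ x) = u ⬝ᵥ (S *ᵥ v) := by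
    intro u v
    have e : ∀ x : Fin 3 → ℝ, (u ⬝ᵥ x) * (v ⬝ᵥ x)
        = ∑ i, ∑ j, (u i * v j) * (x i * x j) := fun x => by
      simp only [dotProduct, Finset.sum_mul_sum]
      exact Finset.sum_congr rfl fun _ _ => Finset.sum_congr rfl fun _ _ => by ring
    simp only [e]
    rw [integral_finsetSum _ fun i _ => integrable_finsetSum _ fun j _ =>
      (hint i j).const_mul (u i * v j)]
    simp only [dotProduct, Matrix.mulVec, S, Matrix.of_apply, Finset.mul_sum]
    refine Finset.sum_congr rfl fun i _ => ?_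
    rw [integral_finsetSum _ fun j _ => (hint i j).const_mul (u i * v j)]
    refine Finset.sum_congr rfl fun j _ => ?_
    rw [integral_const_mul]
    ring
  have hS : S.PosDef := by
    refine Matrix.PosDef.of_dotProduct_mulVec_pos ?_ fun u hu => ?_
    · ext i j
      simp [S, Matrix.conjTranspose_apply, mul_comm]
    rw [star_trivial, ← hbil]
    set φ : (Fin 3 → ℝ) →ₗ[ℝ] ℝ :=
      { toFun := fun x => u ⬝ᵥ x
        map_add' := fun x y => dotProduct_add _ x y
        map_smul' := fun r x => dotProduct_smul r _ x }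
    have hφ : φ.ker ≠ ⊤ := by
      intro h
      refine hu (funext fun i => ?_)
      have h0 : φ (Pi.single i 1) = 0 := LinearMap.mem_ker.1 (h ▸ Submodule.mem_top)
      simpa [φ] using h0
    have hint' : IntegrableOn (fun x : Fin 3 → ℝ => (u ⬝ᵥ x) * (u ⬝ᵥ x)) K volume :=
      ((continuous_dot u).mul (continuous_dot u)).continuousOn.integrableOn_compact hK.compact
    refine (integral_pos_iff_support_of_nonneg (fun x => mul_self_nonneg _) hint').2 ?_
    rw [Measure.restrict_apply' hK.compact.measurableSet]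
    refine lt_of_lt_of_le (pos_iff_ne_zero.2 hKv) ?_
    calc volume K ≤ volume ((Function.support fun x : Fin 3 → ℝ => (u ⬝ᵥ x) * (u ⬝ᵥ x)) ∩ K
          ∪ (φ.ker : Set (Fin 3 → ℝ))) := measure_mono fun x hx => by
            by_cases h : u ⬝ᵥ x = 0
            · exact Or.inr h
            · exact Or.inl ⟨mul_ne_zero h h, hx⟩
      _ ≤ _ + volume (φ.ker : Set (Fin 3 → ℝ)) := measure_union_le _ _
      _ = _ := by rw [Measure.addHaar_submodule volume φ.ker hφ, add_zero]
  obtain ⟨B, hB, hSB⟩ := CStarAlgebra.isStrictlyPositive_iff_eq_star_mul_self.mp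
    hS.isStrictlyPositive
  have hSB' : Bᵀ * B = S := by
    rw [hSB, Matrix.star_eq_conjTranspose, Matrix.conjTranspose_eq_transpose_of_trivial]
  refine ⟨B, hB, ?_⟩
  rw [hSB']
  ext i j
  have h1 : (G * S * Gᵀ) i j = (G i) ⬝ᵥ (S *ᵥ (G j)) := by
    simp only [Matrix.mul_apply, dotProduct, Matrix.mulVec, Matrix.transpose_apply, Finset.sum_mul,
      Finset.mul_sum]
    rw [Finset.sum_comm]
    exact Finset.sum_congr rfl fun _ _ => Finset.sum_congr rfl fun _ _ => by ring
  rw [h1, ← hbil]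
  have h2 := hmp.setIntegral_preimage_emb hemb (fun x : Fin 3 → ℝ => x i * x j) K
  rw [hpre] at h2
  simpa [f, S, Matrix.toLin'_apply, Matrix.mulVec] using h2

/-- The matrix of the rotation around the axis of the coordinate `0`. -/
def axisMat (a c : ℝ) : Mat3 := !![1, 0, 0; 0, a, -c; 0, c, a]

/-- A special orthogonal matrix is a rotation in an orthonormal frame. -/
theorem exists_frame {H : Mat3} (hH : H * Hᵀ = 1) (hdet : H.det = 1) :
    ∃ (R : Mat3) (a c : ℝ), a ^ 2 + c ^ 2 = 1 ∧ R.det ≠ 0 ∧ R * H = axisMat a c * R := by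
  have hH' : Hᵀ * H = 1 := mul_eq_one_comm.1 hH
  have h0 : (H - 1).det = 0 := by
    have e1 : H - 1 = H * (1 - H)ᵀ := by
      rw [Matrix.transpose_sub, Matrix.transpose_one, mul_sub, mul_one, hH]
    have e2 : (1 - H).det = -(H - 1).det := by
      rw [← neg_sub, Matrix.det_neg]; simp; ring
    have := congrArg Matrix.det e1
    rw [Matrix.det_mul, Matrix.det_transpose, hdet, one_mul, e2] at this
    linarith
  obtain ⟨v, hv, hHv⟩ := Matrix.exists_mulVec_eq_zero_iff.2 h0
  rw [Matrix.sub_mulVec, Matrix.one_mulVec, sub_eq_zero] at hHv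
  obtain ⟨u, hu, huv⟩ : ∃ u : Fin 3 → ℝ, u ≠ 0 ∧ u ⬝ᵥ v = 0 := by
    by_cases h : v 0 = 0 ∧ v 1 = 0
    · exact ⟨![1, 0, 0], fun e => by simpa using congrFun e 0, by
        simp [dotProduct, Fin.sum_univ_three, h.1]⟩
    · refine ⟨![-v 1, v 0, 0], fun e => h ⟨?_, ?_⟩, by simp [dotProduct, Fin.sum_univ_three]; ring⟩
      · simpa using congrFun e 1
      · simpa using congrFun e 0
  have hpos : ∀ w : Fin 3 → ℝ, w ≠ 0 → 0 < w ⬝ᵥ w := fun w hw => by
    rcases (show 0 ≤ w ⬝ᵥ w from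
      Finset.sum_nonneg fun i _ => mul_self_nonneg (w i)).eq_or_lt with h | h
    · exact absurd (dotProduct_self_eq_zero.1 h.symm) hw
    · exact h
  set a0 : Fin 3 → ℝ := (√(v ⬝ᵥ v))⁻¹ • v with ha0
  set a1 : Fin 3 → ℝ := (√(u ⬝ᵥ u))⁻¹ • u with ha1
  have n0 : a0 ⬝ᵥ a0 = 1 := by
    simp only [ha0, smul_dotProduct, dotProduct_smul, smul_eq_mul]
    have := hpos v hv
    field_simp
    rw [sq_sqrt this.le]
  have n1 : a1 ⬝ᵥ a1 = 1 := by
    simp only [ha1, smul_dotProduct, dotProduct_smul, smul_eq_mul]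
    have := hpos u hu
    field_simp
    rw [sq_sqrt this.le]
  have n01 : a0 ⬝ᵥ a1 = 0 := by
    simp only [ha0, ha1, smul_dotProduct, dotProduct_smul, smul_eq_mul]
    rw [dotProduct_comm v u, huv]; simp
  have ha0H : H *ᵥ a0 = a0 := by rw [ha0, Matrix.mulVec_smul, hHv]
  have ha0H' : Hᵀ *ᵥ a0 = a0 := by
    have := congrArg (Hᵀ *ᵥ ·) ha0H
    simp only [Matrix.mulVec_mulVec, hH', Matrix.one_mulVec] at this
    exact this.symm
  set R : Mat3 := Matrix.of ![a0, a1, crossProduct a0 a1]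
  have r0 : R 0 = a0 := rfl
  have r1 : R 1 = a1 := rfl
  have r2 : R 2 = crossProduct a0 a1 := rfl
  have hR : R * Rᵀ = 1 := by
    ext i j
    have e : (R * Rᵀ) i j = (R i) ⬝ᵥ (R j) := by
      simp [Matrix.mul_apply, dotProduct]
    rw [e]
    have c0 := dot_self_cross a0 a1
    have c1 := dot_cross_self a0 a1
    have c2 : crossProduct a0 a1 ⬝ᵥ crossProduct a0 a1 = 1 := by
      rw [cross_dot_cross, n0, n1, dotProduct_comm a1 a0, n01]; ring
    fin_cases i <;> fin_cases j <;>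
      simp [r0, r1, r2, n0, n1, n01, c0, c1, c2, dotProduct_comm a1 a0,
        dotProduct_comm (crossProduct a0 a1)]
  have hR' : Rᵀ * R = 1 := mul_eq_one_comm.1 hR
  have hRdet : R.det ≠ 0 := fun h => by
    have := congrArg Matrix.det hR
    rw [Matrix.det_mul, h, zero_mul, Matrix.det_one] at this
    exact zero_ne_one this
  set N := R * H * Rᵀ with hN
  have hNN : N * Nᵀ = 1 := by
    simp only [hN, Matrix.transpose_mul, Matrix.transpose_transpose]
    rw [show R * H * Rᵀ * (R * (Hᵀ * Rᵀ)) = R * (H * (Rᵀ * R) * Hᵀ) * Rᵀ by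
      simp only [Matrix.mul_assoc], hR', mul_one, hH, mul_one, hR]
  have hNdet : N.det = 1 := by
    have := congrArg Matrix.det hR
    rw [Matrix.det_mul, Matrix.det_one] at this
    simp only [hN, Matrix.det_mul, hdet, mul_one, this]
  have hRT0 : Rᵀ *ᵥ Pi.single 0 1 = a0 := by
    funext i
    simp [R, Matrix.mulVec, dotProduct, Pi.single_apply]
  have hRa0 : R *ᵥ a0 = Pi.single 0 1 := by
    rw [← hRT0, Matrix.mulVec_mulVec, hR, Matrix.one_mulVec]
  have col : N *ᵥ Pi.single 0 1 = Pi.single 0 1 := by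
    rw [hN, ← Matrix.mulVec_mulVec, hRT0, ← Matrix.mulVec_mulVec, ha0H, hRa0]
  have row : Nᵀ *ᵥ Pi.single 0 1 = Pi.single 0 1 := by
    rw [hN, Matrix.transpose_mul, Matrix.transpose_mul, Matrix.transpose_transpose,
      ← Matrix.mulVec_mulVec, ← Matrix.mulVec_mulVec, hRT0, ha0H', hRa0]
  have hc : ∀ i, N i 0 = (Pi.single 0 1 : Fin 3 → ℝ) i := fun i => by
    rw [← congrFun col i]; simp
  have hr : ∀ i, N 0 i = (Pi.single 0 1 : Fin 3 → ℝ) i := fun i => by
    rw [← congrFun row i]; simp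
  have q11 := congrFun (congrFun hNN 1) 1
  have q12 := congrFun (congrFun hNN 1) 2
  have q22 := congrFun (congrFun hNN 2) 2
  have n00 : N 0 0 = 1 := by simpa using hr 0
  have n01' : N 0 1 = 0 := by simpa using hr 1
  have n02 : N 0 2 = 0 := by simpa using hr 2
  have n10 : N 1 0 = 0 := by simpa using hc 1
  have n20 : N 2 0 = 0 := by simpa using hc 2
  simp [Matrix.mul_apply, Fin.sum_univ_three, n10, n20] at q11 q12 q22
  rw [Matrix.det_fin_three, n00, n01', n02, n10, n20] at hNdet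
  have e11 : N 1 1 = N 2 2 := by
    linear_combination N 2 2 * q11 - N 1 2 * q12 - N 1 1 * hNdet
  have e12 : N 1 2 = -N 2 1 := by
    linear_combination (-N 2 1) * q11 + N 1 1 * q12 - N 1 2 * hNdet
  refine ⟨R, N 2 2, N 2 1, ?_, hRdet, ?_⟩
  · linear_combination q22
  · have : R * H = N * R := by
      rw [hN, Matrix.mul_assoc (R * H), hR', mul_one]
    rw [this]
    congr 1
    ext i j
    fin_cases i <;> fin_cases j <;> simp [axisMat, n00, n01', n02, n10, n20, e11, e12]

theorem insertNth_zero (z : ℝ) (y : Fin 2 → ℝ) :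
    ((0 : Fin 3).insertNth z y : Fin 3 → ℝ) = ![z, y 0, y 1] := by
  funext i
  fin_cases i <;> rfl

theorem axisMat_mulVec (ψ z : ℝ) (y : Fin 2 → ℝ) :
    axisMat (cos ψ) (sin ψ) *ᵥ ((0 : Fin 3).insertNth z y)
      = (0 : Fin 3).insertNth z (rot2 ψ y) := by
  simp only [insertNth_zero]
  funext i
  fin_cases i <;> simp [axisMat, Matrix.mulVec, dotProduct, Fin.sum_univ_three, rot2]
  ring

/-- The rotations preserving a body. -/
def angles (K : Set (Fin 3 → ℝ)) : AddSubgroup ℝ where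
  carrier := {φ | AxisInv φ K ∧ AxisInv (-φ) K}
  zero_mem' := by
    have h : AxisInv 0 K := fun z y hy => by
      rwa [show rot2 0 y = y by funext i; fin_cases i <;> simp [rot2]]
    exact ⟨h, by rwa [neg_zero]⟩
  add_mem' := by
    rintro a b ⟨ha, ha'⟩ ⟨hb, hb'⟩
    refine ⟨fun z y hy => ?_, fun z y hy => ?_⟩
    · rw [← rot2_add]; exact ha z _ (hb z y hy)
    · rw [neg_add, ← rot2_add]; exact ha' z _ (hb' z y hy)
  neg_mem' := by
    rintro a ⟨ha, ha'⟩
    exact ⟨ha', by rwa [neg_neg]⟩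

theorem isClosed_angles {K : Set (Fin 3 → ℝ)} (hK : IsClosed K) :
    IsClosed (angles K : Set ℝ) := by
  have h : ∀ z y, IsClosed {φ : ℝ | rot2 φ y ∈ sec 0 K z} := fun z y =>
    (hK.preimage (continuous_insertNth_right 0 z)).preimage <| continuous_pi fun i => by
      fin_cases i <;> simp [rot2] <;> fun_prop
  have e : (angles K : Set ℝ) = ⋂ z, ⋂ y ∈ sec 0 K z,
      ({φ : ℝ | rot2 φ y ∈ sec 0 K z} ∩ Neg.neg ⁻¹' {φ : ℝ | rot2 φ y ∈ sec 0 K z}) := by
    ext φ
    simp only [Set.mem_iInter, Set.mem_inter_iff, Set.mem_preimage]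
    exact ⟨fun h z y hy => ⟨h.1 z y hy, h.2 z y hy⟩,
      fun h => ⟨fun z y hy => (h z y hy).1, fun z y hy => (h z y hy).2⟩⟩
  rw [e]
  exact isClosed_iInter fun z => isClosed_biInter fun y _ =>
    (h z y).inter ((h z y).preimage continuous_neg)

theorem comb_le_axis {K L : Set (Fin 3 → ℝ)} (hK : Ctr K) (hL : Ctr L) (hKv : volume K ≠ 0)
    (hLv : volume L ≠ 0) {ψ : ℝ} (hψ : ¬∃ a : ℤ, ψ = a * (2 * π))
    (hψK : ψ ∈ angles K) (hψL : ψ ∈ angles L) {l : ℝ} (hl : l ∈ Icc (0 : ℝ) 1) :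
    volume K ^ (1 - l) * volume L ^ l ≤ volume (comb l K L) := by
  set Γ := angles K ⊓ angles L
  have h2π : (2 * π) ∈ Γ := by
    have e : ∀ y : Fin 2 → ℝ, rot2 (2 * π) y = y ∧ rot2 (-(2 * π)) y = y := fun y => by
      constructor <;> funext i <;> fin_cases i <;> simp [rot2]
    constructor <;> refine ⟨fun z y hy => ?_, fun z y hy => ?_⟩
    all_goals first | rwa [(e y).1] | rwa [(e y).2]
  have hψΓ : ψ ∈ Γ := ⟨hψK, hψL⟩
  have halfTurn : π ∈ Γ → volume K ^ (1 - l) * volume L ^ l ≤ volume (comb l K L) := by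
    intro h
    have hflip : ∀ A, Ctr A → π ∈ angles A → ∀ i ∈ ({0} : Finset (Fin 3)), FlipInv i A := by
      intro A hA hA' i hi x hx
      rw [Finset.mem_singleton.1 hi]
      obtain ⟨z, y, rfl⟩ : ∃ z y, x = (0 : Fin 3).insertNth z y :=
        ⟨x 0, (0 : Fin 3).removeNth x, (Fin.insertNth_self_removeNth _ x).symm⟩
      rw [flip_insertNth]
      have := hA.neg_mem _ (hA'.1 z y hx)
      convert this using 1
      simp only [insertNth_zero]
      funext j
      fin_cases j <;> simp [rot2]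
    exact comb_le_flip (m := 1) (Finset.card_singleton _) hK hL (hflip K hK h.1) (hflip L hL h.2)
      hKv hLv hl
  rcases Γ.dense_or_cyclic with hd | ⟨γ, hγ⟩
  · refine halfTurn ?_
    have hcl : IsClosed (Γ : Set ℝ) :=
      (isClosed_angles hK.compact.isClosed).inter (isClosed_angles hL.compact.isClosed)
    have hπ := hd π
    rwa [hcl.closure_eq] at hπ
  rw [← AddSubgroup.zmultiples_eq_closure] at hγ
  obtain ⟨k, hk⟩ : ∃ k : ℤ, k • γ = 2 * π := AddSubgroup.mem_zmultiples_iff.1 (hγ ▸ h2π)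
  obtain ⟨a, ha⟩ : ∃ a : ℤ, a • γ = ψ := AddSubgroup.mem_zmultiples_iff.1 (hγ ▸ hψΓ)
  rw [zsmul_eq_mul] at hk ha
  have hk0 : k ≠ 0 := fun h => by simp [h, pi_ne_zero] at hk
  rcases Int.even_or_odd k with ⟨q, hq⟩ | hodd
  · refine halfTurn (hγ ▸ AddSubgroup.mem_zmultiples_iff.2 ⟨q, ?_⟩)
    rw [zsmul_eq_mul]
    rw [hq] at hk
    push_cast at hk
    linarith
  · set p := k.natAbs
    have hp1 : Odd p := Int.natAbs_odd.2 hodd
    have hp3 : 3 ≤ p := by
      by_contra! h
      obtain ⟨r, hr⟩ := hp1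
      have hp : p = 1 := by omega
      rcases Int.natAbs_eq k with e | e <;> rw [show k.natAbs = 1 from hp] at e
      · refine hψ ⟨a, ?_⟩
        rw [e] at hk
        push_cast at hk
        rw [← ha, ← hk]; ring
      · refine hψ ⟨-a, ?_⟩
        rw [e] at hk
        push_cast at hk ⊢
        rw [← ha, ← hk]; ring
    have hmem : (2 * π / p) ∈ Γ := by
      have hkR : (k : ℝ) ≠ 0 := by exact_mod_cast hk0
      rcases Int.natAbs_eq k with e | e
      · refine hγ ▸ AddSubgroup.mem_zmultiples_iff.2 ⟨1, ?_⟩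
        have : (k : ℝ) = (p : ℝ) := by rw [e]; rfl
        rw [one_zsmul, ← hk, ← this]
        field_simp
      · refine hγ ▸ AddSubgroup.mem_zmultiples_iff.2 ⟨-1, ?_⟩
        have : (k : ℝ) = -(p : ℝ) := by rw [e]; simp [p]
        rw [neg_one_zsmul, ← hk, this]
        have hp' : (p : ℝ) ≠ 0 := fun h => hkR (by rw [this, h, neg_zero])
        field_simp
    exact comb_le (fun A => Ctr A ∧ AxisInv (2 * π / p) A) (fun _ h => h.1)
      (fun A B l hA hB =>
        ⟨ctr_comb hA.1 hB.1 l, axisInv_comb hA.1 hB.1 (by omega) hA.2 hB.2 l⟩)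
      (fun A B hA hB => half_le_rot hp1 hp3 hA.1 hB.1 hA.2 hB.2) ⟨hK, hmem.1.1⟩ ⟨hL, hmem.2.1⟩
      hKv hLv hl

/-- Transfer along an invertible matrix. -/
theorem comb_le_mimg {K L : Set (Fin 3 → ℝ)} {T : Mat3} (hT : T.det ≠ 0) {l : ℝ}
    (hl : l ∈ Icc (0 : ℝ) 1)
    (h : volume (mimg T K) ^ (1 - l) * volume (mimg T L) ^ l
      ≤ volume (comb l (mimg T K) (mimg T L))) :
    volume K ^ (1 - l) * volume L ^ l ≤ volume (comb l K L) := by
  have hu : IsUnit T.det := isUnit_iff_ne_zero.2 hT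
  have hsupp : ∀ A u, supp (mimg T A) (u ᵥ* T⁻¹) = supp A u := by
    intro A u
    simp only [supp, mimg, Set.image_image, Matrix.dotProduct_mulVec, Matrix.vecMul_vecMul,
      Matrix.nonsing_inv_mul T hu, Matrix.vecMul_one]
  have hsub : comb l (mimg T K) (mimg T L) ⊆ mimg T (comb l K L) := fun y hy => by
    refine ⟨T⁻¹ *ᵥ y, fun u => ?_, by
      simp [Matrix.mulVec_mulVec, Matrix.mul_nonsing_inv T hu]⟩
    show u ⬝ᵥ (T⁻¹ *ᵥ y) ≤ supp K u ^ (1 - l) * supp L u ^ l
    rw [← hsupp K u, ← hsupp L u, Matrix.dotProduct_mulVec]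
    exact hy _
  have h' := h.trans (measure_mono hsub)
  have hd0 : ENNReal.ofReal |T.det| ≠ 0 := by simp [hT]
  rw [volume_mimg, volume_mimg, volume_mimg, ENNReal.mul_rpow_of_nonneg _ _ (sub_nonneg.2 hl.2),
    ENNReal.mul_rpow_of_nonneg _ _ hl.1, mul_mul_mul_comm,
    ← ENNReal.rpow_add _ _ hd0 ENNReal.ofReal_ne_top, sub_add_cancel, ENNReal.rpow_one] at h'
  exact (ENNReal.mul_le_mul_iff_right hd0 ENNReal.ofReal_ne_top).1 h'

/-- The logarithmic inequality for a pair in space with a common linear symmetry. -/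
theorem comb_le_symm {K L : Set (Fin 3 → ℝ)} (hK : Ctr K) (hL : Ctr L) (hKv : volume K ≠ 0)
    (hLv : volume L ≠ 0) {G : Mat3} (hG1 : G ≠ 1) (hG2 : G ≠ -1) (hGK : mimg G K = K)
    (hGL : mimg G L = L) {l : ℝ} (hl : l ∈ Icc (0 : ℝ) 1) :
    volume K ^ (1 - l) * volume L ^ l ≤ volume (comb l K L) := by
  obtain ⟨hGdet, B, hB, hGS⟩ := exists_orth hK hKv hGK
  have hBd : IsUnit Bᵀ.det := by
    rw [Matrix.det_transpose]; exact (Matrix.isUnit_iff_isUnit_det B).1 hB
  set C := Bᵀ
  set G' := C⁻¹ * G * C with hG'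
  have hCT : B = Cᵀ := (Matrix.transpose_transpose B).symm
  have hG'o : G' * G'ᵀ = 1 := by
    simp only [hG', Matrix.transpose_mul]
    rw [show C⁻¹ * G * C * (Cᵀ * (Gᵀ * (C⁻¹)ᵀ)) = C⁻¹ * (G * (C * Cᵀ) * Gᵀ) * (C⁻¹)ᵀ by
      simp only [Matrix.mul_assoc], ← hCT, hGS, hCT, ← Matrix.mul_assoc C⁻¹,
      Matrix.nonsing_inv_mul C hBd, one_mul, ← Matrix.transpose_mul,
      Matrix.nonsing_inv_mul C hBd, Matrix.transpose_one]
  have hd2 : G'.det * G'.det = 1 := by
    have := congrArg Matrix.det hG'o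
    rwa [Matrix.det_mul, Matrix.det_transpose, Matrix.det_one] at this
  set e := G'.det
  set H := e • G' with hH
  have hHo : H * Hᵀ = 1 := by
    rw [hH, Matrix.transpose_smul, smul_mul_smul_comm, hd2, hG'o, one_smul]
  have hHdet : H.det = 1 := by
    rw [hH, Matrix.det_smul]; simp; linear_combination (e * e + 1) * hd2
  obtain ⟨R, a, c, hac, hRdet, hRH⟩ := exists_frame hHo hHdet
  obtain ⟨ψ, hcos, hsin⟩ : ∃ ψ, cos ψ = a ∧ sin ψ = c := by
    have hn : ‖(⟨a, c⟩ : ℂ)‖ = 1 := by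
      rw [Complex.norm_def, Complex.normSq_mk, ← sq, ← sq, hac, sqrt_one]
    refine ⟨Complex.arg ⟨a, c⟩, ?_, ?_⟩
    · have := Complex.norm_mul_cos_arg ⟨a, c⟩
      simpa [hn] using this
    · have := Complex.norm_mul_sin_arg ⟨a, c⟩
      simpa [hn] using this
  set T := R * C⁻¹ with hT
  have hCi : C⁻¹.det ≠ 0 := by
    rw [Matrix.det_nonsing_inv]
    simp [hBd.ne_zero]
  have hTdet : T.det ≠ 0 := by rw [hT, Matrix.det_mul]; exact mul_ne_zero hRdet hCi
  have hconj : T * (e • G) = axisMat (cos ψ) (sin ψ) * T := by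
    rw [hcos, hsin, hT, ← Matrix.mul_assoc (axisMat a c), ← hRH, hH, hG', mul_smul_comm,
      mul_smul_comm, smul_mul_assoc]
    simp only [Matrix.mul_assoc, Matrix.mul_nonsing_inv C hBd, mul_one]
  have hsym : ∀ A, Ctr A → mimg G A = A → ψ ∈ angles (mimg T A) := by
    intro A hA hGA
    have he : mimg (e • G) A = A := by
      rcases mul_self_eq_one_iff.1 hd2 with h | h <;> rw [h]
      · rw [one_smul, hGA]
      · refine Set.ext fun x => ⟨?_, fun hx => ?_⟩
        · rintro ⟨y, hy, rfl⟩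
          show ((-1 : ℝ) • G) *ᵥ y ∈ A
          rw [neg_one_smul, Matrix.neg_mulVec]
          exact hA.neg_mem _ (hGA ▸ ⟨y, hy, rfl⟩)
        · obtain ⟨y, hy, hyx⟩ := hGA.symm ▸ hA.neg_mem x hx
          refine ⟨y, hy, ?_⟩
          show ((-1 : ℝ) • G) *ᵥ y = x
          rw [neg_one_smul, Matrix.neg_mulVec, show G *ᵥ y = -x from hyx, neg_neg]
    have hinv : mimg (axisMat (cos ψ) (sin ψ)) (mimg T A) = mimg T A := by
      rw [← mimg_mul, ← hconj, mimg_mul, he]
    constructor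
    · intro z y hy
      show _ ∈ mimg T A
      rw [← hinv]
      exact ⟨_, hy, axisMat_mulVec ψ z y⟩
    · intro z y hy
      obtain ⟨q, hq, hqy⟩ := hinv.symm ▸
        (show ((0 : Fin 3).insertNth z y : Fin 3 → ℝ) ∈ mimg T A from hy)
      obtain ⟨z', y', rfl⟩ : ∃ z' y', q = (0 : Fin 3).insertNth z' y' :=
        ⟨q 0, (0 : Fin 3).removeNth q, (Fin.insertNth_self_removeNth _ q).symm⟩
      have hqy' : ((0 : Fin 3).insertNth z' (rot2 ψ y') : Fin 3 → ℝ) = (0 : Fin 3).insertNth z y :=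
        (axisMat_mulVec ψ z' y').symm.trans hqy
      obtain ⟨hz, hy'⟩ := Fin.insertNth_inj.1 hqy'
      show _ ∈ mimg T A
      rw [← hy', ← hz, rot2_add, neg_add_cancel,
        show rot2 0 y' = y' by funext i; fin_cases i <;> simp [rot2]]
      exact hq
  have hψ : ¬∃ k : ℤ, ψ = k * (2 * π) := by
    rintro ⟨k, rfl⟩
    rw [cos_int_mul_two_pi] at hconj
    have hs : sin (k * (2 * π)) = 0 := by
      simpa using sin_add_int_mul_two_pi 0 k
    rw [hs, show axisMat 1 0 = 1 by
      ext i j; fin_cases i <;> fin_cases j <;> simp [axisMat], one_mul] at hconj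
    have h1 : e • G = 1 := by
      have := congrArg (T⁻¹ * ·) hconj
      simpa [← Matrix.mul_assoc, Matrix.nonsing_inv_mul T (isUnit_iff_ne_zero.2 hTdet)] using this
    rcases mul_self_eq_one_iff.1 hd2 with h | h <;> rw [h] at h1
    · exact hG1 (by simpa using h1)
    · refine hG2 ?_
      rw [← h1]; simp
  refine comb_le_mimg hTdet hl ?_
  refine comb_le_axis (ctr_mimg hK T) (ctr_mimg hL T) ?_ ?_ hψ (hsym K hK hGK) (hsym L hL hGL) hl
  all_goals rw [volume_mimg]
  · exact mul_ne_zero (by simp [hTdet]) hKv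
  · exact mul_ne_zero (by simp [hTdet]) hLv

end

end Vale.Agent.P227.Rot
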