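import Vale.Agent.P227.Rot.Scalar

/-!
# P227, rotations: energies of periodic and antiperiodic samples
-/

namespace Vale.Agent.P227.Rot

open Real Finset

noncomputable section

variable {θ : ℝ}

theorem energy_add (X : ℤ → ℝ) (j : ℤ) (a b : ℕ) :
    energy θ X j (a + b) = energy θ X j a + energy θ X (j + a) b := by
  rw [energy, sum_range_add, energy, energy]
  congr 1
  refine sum_congr rfl fun i _ => ?_
  push_cast
  rw [add_assoc j (a : ℤ) (i : ℤ)]

theorem energy_shift_one {n : ℕ} {X : ℤ → ℝ} (hX : ∀ i, X (i + n) = X i) (j : ℤ) :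
    energy θ X (j + 1) n = energy θ X j n := by
  have h1 := energy_add (θ := θ) X j 1 n
  have h2 := energy_add (θ := θ) X j n 1
  rw [Nat.add_comm] at h1
  rw [h1] at h2
  have e : energy θ X (j + n) 1 = energy θ X j 1 := by
    simp only [energy, sum_range_one, Nat.cast_zero, add_zero]
    rw [hX, show j + (n : ℤ) + 1 = j + 1 + n by ring, hX]
  rw [e] at h2
  push_cast at h2
  linarith

theorem energy_shift {n : ℕ} {X : ℤ → ℝ} (hX : ∀ i, X (i + n) = X i) (j : ℤ) :
    energy θ X j n = energy θ X 0 n := by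
  induction j using Int.induction_on with
  | zero => rfl
  | succ i ih => rw [energy_shift_one hX, ih]
  | pred i ih => rw [← ih, ← energy_shift_one hX (-(i : ℤ) - 1), sub_add_cancel]

theorem energy_periodic_mul {k : ℕ} {X : ℤ → ℝ} (hX : ∀ i, X (i + k) = X i) (p : ℕ) :
    energy θ X 0 (p * k) = p * energy θ X 0 k := by
  induction p with
  | zero => simp [energy]
  | succ p ih =>
    rw [Nat.succ_mul, energy_add, energy_shift hX, ih]
    push_cast
    ring

theorem energy_smul (c : ℝ) (X : ℤ → ℝ) (j : ℤ) (n : ℕ) :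
    energy θ (fun i => c * X i) j n = c ^ 2 * energy θ X j n := by
  rw [energy, energy, mul_sum]
  refine sum_congr rfl fun i _ => ?_
  simp only [eform]
  ring

theorem energy_parallelogram (X Y : ℤ → ℝ) (j : ℤ) (n : ℕ) :
    energy θ (fun i => X i + Y i) j n + energy θ (fun i => X i - Y i) j n
      = 2 * energy θ X j n + 2 * energy θ Y j n := by
  simp only [energy, mul_sum, ← sum_add_distrib]
  refine sum_congr rfl fun i _ => ?_
  simp only [eform]
  ring

theorem energy_parity {k : ℕ} {U V : ℤ → ℝ} (hU : ∀ i, U (i + k) = U i)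
    (hV : ∀ i, V (i + k) = -V i) :
    energy θ (fun i => U i - V i) 0 (2 * k)
      = energy θ U 0 (2 * k) + energy θ V 0 (2 * k) := by
  rw [two_mul, energy_add, energy_add, energy_add]
  have e : ∀ X : ℤ → ℝ, energy θ X (0 + k) k
      = ∑ i ∈ range k, eform θ (X ((i : ℤ) + k)) (X ((i : ℤ) + 1 + k)) := fun X => by
    refine sum_congr rfl fun i _ => ?_
    congr 2 <;> ring
  simp only [e, hU, hV]
  simp only [energy, zero_add, ← sum_add_distrib]
  refine sum_congr rfl fun i _ => ?_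
  simp only [eform]
  ring

theorem odd_bound (hθ : 0 < θ) {k : ℕ} (hk : 1 ≤ k) (hL : k * θ < π) {X : ℤ → ℝ}
    (hX : ∀ i, X (i + k) = -X i) (j : ℤ) :
    4 * X j ^ 2 * (cos (k * θ / 2) / sin (k * θ / 2)) ≤ energy θ X 0 (2 * k) := by
  have hper : ∀ i, X (i + (2 * k : ℕ)) = X i := fun i => by
    push_cast
    rw [show i + 2 * (k : ℤ) = i + k + k by ring, hX, hX, neg_neg]
  rw [← energy_shift hper j, two_mul k, energy_add]
  have h1 := eform_le_energy hθ X j k hk hL
  have h2 := eform_le_energy hθ X (j + k) k hk hL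
  have hpos : (0 : ℝ) < k * θ := mul_pos (by exact_mod_cast hk) hθ
  rw [hX, eform_opposite hpos hL] at h1
  simp only [hX, neg_neg] at h2
  have h3 := eform_opposite hpos hL (-X j)
  rw [neg_neg] at h3
  rw [h3, neg_sq] at h2
  linarith

theorem odd_nonneg (hθ : 0 < θ) {k : ℕ} (hk : 1 ≤ k) (hL : k * θ < π) {X : ℤ → ℝ}
    (hX : ∀ i, X (i + k) = -X i) : 0 ≤ energy θ X 0 (2 * k) := by
  have hpos : (0 : ℝ) < k * θ := mul_pos (by exact_mod_cast hk) hθ
  refine le_trans ?_ (odd_bound hθ hk hL hX 0)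
  exact mul_nonneg (by positivity) (div_nonneg
    (cos_nonneg_of_mem_Icc ⟨by linarith [pi_pos], by linarith⟩)
    (sin_nonneg_of_nonneg_of_le_pi (by linarith) (by linarith)))

theorem even_bound (hθ : 0 < θ) {k : ℕ} (hk : 1 ≤ k) (hL : k * θ < π) {X : ℤ → ℝ}
    (hX : ∀ i, X (i + k) = X i) (j : ℤ) :
    -(4 * X j ^ 2 * (sin (k * θ / 2) / cos (k * θ / 2))) ≤ energy θ X 0 (2 * k) := by
  have hpos : (0 : ℝ) < k * θ := mul_pos (by exact_mod_cast hk) hθ
  rw [energy_periodic_mul hX, ← energy_shift hX j]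
  have h1 := eform_le_energy hθ X j k hk hL
  rw [hX, eform_same hpos hL] at h1
  push_cast
  linarith

theorem range_bound (hθ : 0 < θ) {k : ℕ} (hk : 1 ≤ k) (hL : k * θ < π) {X : ℤ → ℝ}
    (hX : ∀ i, X (i + k) = X i) {w : ℝ} {i j : ℤ} (hi : X i = w) (hj : X j = -w) :
    8 * w ^ 2 * (cos (k * θ / 4) / sin (k * θ / 4)) ≤ energy θ X 0 (2 * k) := by
  have hpos : (0 : ℝ) < k * θ := mul_pos (by exact_mod_cast hk) hθ
  rw [energy_periodic_mul hX, ← energy_shift hX i]
  have hp : Function.Periodic X (k : ℤ) := hX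
  obtain ⟨a, ha⟩ := Int.eq_ofNat_of_zero_le
    (Int.emod_nonneg (j - i) (show (k : ℤ) ≠ 0 by omega))
  have hak : a < k := by
    have := Int.emod_lt_of_pos (j - i) (show (0 : ℤ) < k by omega)
    omega
  have hXa : X (i + a) = -w := by
    have h := hp.int_mul ((j - i) / (k : ℤ)) (i + a)
    simp only [Int.cast_id] at h
    rw [← h, ← hj]
    congr 1
    linarith [Int.emod_add_mul_ediv (j - i) (k : ℤ)]
  rcases Nat.eq_zero_or_pos a with ha0 | ha0
  · have hw : w = 0 := by
      rw [ha0, Nat.cast_zero, add_zero, hi] at hXa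
      linarith
    subst hw
    have h := eform_le_energy hθ X i k hk hL
    rw [hX, eform_same hpos hL, hi] at h
    push_cast
    nlinarith
  obtain ⟨b, rfl⟩ : ∃ b, k = a + b := ⟨k - a, by omega⟩
  have hb : 1 ≤ b := by omega
  rw [energy_add]
  push_cast at hL hpos ⊢
  have hb' : (1 : ℝ) ≤ b := by exact_mod_cast hb
  have ha' : (1 : ℝ) ≤ a := by exact_mod_cast ha0
  have h1 := eform_le_energy hθ X i a ha0 (by nlinarith)
  have h2 := eform_le_energy hθ X (i + a) b hb (by nlinarith)
  have hXb : X (i + a + b) = w := by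
    have := hX i
    push_cast at this
    rw [add_assoc, this, hi]
  rw [hi, hXa, eform_opposite (by positivity) (by nlinarith)] at h1
  rw [hXa, hXb] at h2
  have h3 := eform_opposite (x := b * θ) (by positivity) (by nlinarith) (-w)
  rw [neg_neg, neg_sq] at h3
  rw [h3] at h2
  have h4 := two_cot_le (a := a * θ / 2) (b := b * θ / 2) (by positivity) (by positivity)
    (by nlinarith)
  rw [show ((a : ℝ) * θ / 2 + b * θ / 2) / 2 = (a + b) * θ / 4 by ring] at h4
  nlinarith [mul_le_mul_of_nonneg_left h4 (sq_nonneg w)]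

/-- Two numerical bounds for the tangent. -/
theorem trig_bounds {p : ℕ} (hp : Odd p) (hp3 : 3 ≤ p) :
    p * (sin (π / p / 2) / cos (π / p / 2)) ≤ 17325 / 10000
      ∧ 519 / 100 ≤ p * (cos (π / p / 2) / sin (π / p / 2))
      ∧ 11 ≤ p * (cos (π / p / 4) / sin (π / p / 4)) := by
  have hp' : (3 : ℝ) ≤ p := by exact_mod_cast hp3
  have h314 := pi_lt_d2
  set x := π / (p : ℝ) / 2 with hx
  have hx0 : 0 < x := by positivity
  have hxp : p * x = π / 2 := by rw [hx]; field_simp
  have hx1 : x ≤ 3 / 5 := by nlinarith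
  have hs : 0 < sin x := sin_pos_of_pos_of_lt_pi hx0 (by linarith [pi_gt_three])
  have hc : 0 < cos x := lt_of_lt_of_le (by nlinarith) (one_sub_sq_div_two_le_cos)
  have hT : p * (sin x / cos x) ≤ 17325 / 10000 := by
    rcases eq_or_lt_of_le hp3 with rfl | hlt
    · have : x = π / 6 := by rw [hx]; push_cast; ring
      rw [this, sin_pi_div_six, cos_pi_div_six]
      have h3 := sq_sqrt (show (0 : ℝ) ≤ 3 by norm_num)
      have h3' : (0 : ℝ) < √3 := by positivity
      rw [div_div_div_cancel_right₀ two_ne_zero, mul_one_div, div_le_iff₀ h3']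
      push_cast
      nlinarith
    · obtain ⟨q, rfl⟩ := hp
      have h5 : (5 : ℝ) ≤ ((2 * q + 1 : ℕ) : ℝ) := by exact_mod_cast (show 5 ≤ 2 * q + 1 by omega)
      have hx5 : x ≤ 32 / 100 := by nlinarith
      rw [← mul_div_assoc, div_le_iff₀ hc]
      have h1 : ((2 * q + 1 : ℕ) : ℝ) * sin x ≤ π / 2 :=
        hxp ▸ mul_le_mul_of_nonneg_left (sin_le hx0.le) (by positivity)
      have h2 : 94 / 100 ≤ cos x := le_trans (by nlinarith) one_sub_sq_div_two_le_cos
      nlinarith
  refine ⟨hT, ?_, ?_⟩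
  · have e : p * (cos x / sin x) = (p : ℝ) ^ 2 / (p * (sin x / cos x)) := by field_simp
    rw [e, le_div_iff₀ (mul_pos (by linarith) (div_pos hs hc))]
    nlinarith
  · rw [show π / (p : ℝ) / 4 = x / 2 by rw [hx]; ring]
    have hy0 : 0 < x / 2 := by linarith
    have hsy : 0 < sin (x / 2) := sin_pos_of_pos_of_lt_pi hy0 (by linarith [pi_gt_three])
    have hcy : 1 - (x / 2) ^ 2 / 2 ≤ cos (x / 2) := one_sub_sq_div_two_le_cos
    refine le_trans ?_ (mul_le_mul_of_nonneg_left
      (div_le_div₀ (le_trans (by nlinarith) hcy) hcy hsy (sin_le hy0.le)) (by positivity))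
    rw [← mul_div_assoc, le_div_iff₀ hy0]
    nlinarith [sq_nonneg ((p : ℝ) - 3)]

end

end Vale.Agent.P227.Rot
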