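import Vale.Agent.P227.Rot.Classify

/-!
# P227, rotations: reflections and one symmetry of the complementary space

With `n - 3` common coordinate reflections the slices reduce to space, where one linear symmetry
is enough.
-/

namespace Vale.Agent.P227.Rot

open MeasureTheory Set Matrix Real Function
open scoped ENNReal

noncomputable section

variable {n : ℕ}

/-- The linear map `T` fixes the coordinate `i` and the corresponding basis vector. -/
def Fixes (T : (Fin n → ℝ) →ₗ[ℝ] (Fin n → ℝ)) (i : Fin n) : Prop :=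
  T (Pi.single i 1) = Pi.single i 1 ∧ ∀ x, T x i = x i

/-- The linear map acting as `-1` off `S`. -/
def negOff (S : Finset (Fin n)) (x : Fin n → ℝ) : Fin n → ℝ :=
  fun j => if j ∈ S then x j else -x j

theorem linear_comb_inv {K L : Set (Fin n → ℝ)}
    {T : (Fin n → ℝ) →ₗ[ℝ] (Fin n → ℝ)} (hT : Injective T) (hTK : T '' K = K) (hTL : T '' L = L)
    (l : ℝ) : T '' comb l K L = comb l K L := by
  have hs : Surjective T := T.surjective_of_injective hT
  set tr : (Fin n → ℝ) → (Fin n → ℝ) := fun u j => u ⬝ᵥ T (Pi.single j 1)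
  have hdot : ∀ u x, u ⬝ᵥ T x = tr u ⬝ᵥ x := by
    intro u x
    conv_lhs => rw [← Finset.univ_sum_single x, map_sum, dotProduct_sum]
    refine Finset.sum_congr rfl fun j _ => ?_
    rw [show Pi.single j (x j) = x j • (Pi.single j (1 : ℝ) : Fin n → ℝ) by
      rw [← Pi.single_smul, smul_eq_mul, mul_one], map_smul, dotProduct_smul, smul_eq_mul]
    simp [tr, mul_comm]
  have hsupp : ∀ A : Set (Fin n → ℝ), T '' A = A → ∀ u, supp A (tr u) = supp A u := by
    intro A hA u
    conv_rhs => rw [← hA]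
    simp only [supp, Set.image_image, hdot]
  have htr : Surjective tr := by
    intro w
    obtain ⟨S', hS'⟩ : ∃ S' : (Fin n → ℝ) →ₗ[ℝ] (Fin n → ℝ), ∀ x, S' (T x) = x :=
      ⟨(LinearEquiv.ofBijective T ⟨hT, hs⟩).symm.toLinearMap,
        (LinearEquiv.ofBijective T ⟨hT, hs⟩).symm_apply_apply⟩
    refine ⟨fun j => w ⬝ᵥ S' (Pi.single j 1), funext fun i => ?_⟩
    show (fun j => w ⬝ᵥ S' (Pi.single j 1)) ⬝ᵥ T (Pi.single i 1) = w i
    have e : ∀ y : Fin n → ℝ, (fun j => w ⬝ᵥ S' (Pi.single j 1)) ⬝ᵥ y = w ⬝ᵥ S' y := by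
      intro y
      conv_rhs => rw [← Finset.univ_sum_single y, map_sum, dotProduct_sum]
      refine Finset.sum_congr rfl fun j _ => ?_
      rw [show Pi.single j (y j) = y j • (Pi.single j (1 : ℝ) : Fin n → ℝ) by
        rw [← Pi.single_smul, smul_eq_mul, mul_one], map_smul, dotProduct_smul, smul_eq_mul,
        mul_comm]
    rw [e, hS', dotProduct_single, mul_one]
  refine Set.ext fun x => ⟨?_, fun hx => ?_⟩
  · rintro ⟨y, hy, rfl⟩ u
    show u ⬝ᵥ T y ≤ supp K u ^ (1 - l) * supp L u ^ l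
    rw [hdot, ← hsupp K hTK u, ← hsupp L hTL u]
    exact hy _
  · obtain ⟨y, rfl⟩ := hs x
    refine ⟨y, fun w => ?_, rfl⟩
    obtain ⟨u, rfl⟩ := htr w
    show tr u ⬝ᵥ y ≤ supp K (tr u) ^ (1 - l) * supp L (tr u) ^ l
    rw [hsupp K hTK u, hsupp L hTL u, ← hdot]
    exact hx u

theorem image_sec {p : Fin (n + 1)} {T : (Fin (n + 1) → ℝ) →ₗ[ℝ] (Fin (n + 1) → ℝ)}
    {T' : (Fin n → ℝ) →ₗ[ℝ] (Fin n → ℝ)}
    (hins : ∀ z y, T (p.insertNth z y) = p.insertNth z (T' y)) {K : Set (Fin (n + 1) → ℝ)}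
    (hTK : T '' K = K) (z : ℝ) : T' '' sec p K z = sec p K z := by
  refine Set.ext fun w => ⟨?_, fun hw => ?_⟩
  · rintro ⟨y, hy, rfl⟩
    show (p.insertNth z (T' y) : Fin (n + 1) → ℝ) ∈ K
    rw [← hins, ← hTK]
    exact ⟨_, hy, rfl⟩
  · obtain ⟨x, hx, hxw⟩ := hTK.symm ▸ (show (p.insertNth z w : Fin (n + 1) → ℝ) ∈ K from hw)
    obtain ⟨z', y, rfl⟩ : ∃ z' y, x = p.insertNth z' y :=
      ⟨x p, p.removeNth x, (Fin.insertNth_self_removeNth _ x).symm⟩
    obtain ⟨rfl, rfl⟩ := Fin.insertNth_inj.1 ((hins z' y).symm.trans hxw)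
    exact ⟨y, hx, rfl⟩

/-- The midpoint inequality with `n - 3` reflections and one symmetry of the remaining space. -/
theorem half_le_higher : ∀ (m : ℕ) (S : Finset (Fin (m + 3))), S.card = m →
    ∀ (T : (Fin (m + 3) → ℝ) →ₗ[ℝ] (Fin (m + 3) → ℝ)), Injective T → (∀ i ∈ S, Fixes T i) →
    (∃ x, T x ≠ x) → (∃ x, T x ≠ negOff S x) →
    ∀ K L : Set (Fin (m + 3) → ℝ), Ctr K → Ctr L → (∀ i ∈ S, FlipInv i K) →
      (∀ i ∈ S, FlipInv i L) → T '' K = K → T '' L = L →
      volume K * volume L ≤ volume (half K L) ^ 2 := by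
  intro m
  induction m with
  | zero =>
    intro S hS T _ _ hT1 hT2 K L hK hL _ _ hTK hTL
    rcases eq_or_ne (volume K) 0 with hKv | hKv
    · simp [hKv]
    rcases eq_or_ne (volume L) 0 with hLv | hLv
    · simp [hLv]
    rw [Finset.card_eq_zero.1 hS] at hT2
    set G := LinearMap.toMatrix' T
    have hG : ∀ y, G *ᵥ y = T y := fun y => LinearMap.toMatrix'_mulVec T y
    have hG1 : G ≠ 1 := fun h => by
      obtain ⟨x, hx⟩ := hT1
      exact hx (by rw [← hG, h, Matrix.one_mulVec])
    have hG2 : G ≠ -1 := fun h => by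
      obtain ⟨x, hx⟩ := hT2
      refine hx ?_
      rw [← hG, h, Matrix.neg_mulVec, Matrix.one_mulVec]
      funext j
      simp [negOff]
    have him : ∀ A, T '' A = A → mimg G A = A := fun A hA => by
      simp only [mimg, hG]; exact hA
    have h := comb_le_symm hK hL hKv hLv hG1 hG2 (him K hTK) (him L hTL)
      (l := 1 / 2) ⟨by norm_num, by norm_num⟩
    have he : comb (1 / 2) K L = half K L := by
      unfold comb half
      congr 1
      funext u
      norm_num
      rw [Real.sqrt_eq_rpow, Real.mul_rpow (supp_nonneg hK u) (supp_nonneg hL u)]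
    rw [he] at h
    refine le_trans (le_of_eq ?_) (pow_le_pow_left' h 2)
    rw [mul_pow, ← ENNReal.rpow_natCast, ← ENNReal.rpow_natCast, ← ENNReal.rpow_mul,
      ← ENNReal.rpow_mul]
    norm_num
  | succ m ih =>
    intro S hS T hTinj hTS hT1 hT2 K L hK hL hSK hSL hTK hTL
    obtain ⟨p, hp⟩ : S.Nonempty := Finset.card_pos.1 (by omega)
    obtain ⟨hfe, hfc⟩ := hTS p hp
    set T' : (Fin (m + 3) → ℝ) →ₗ[ℝ] (Fin (m + 3) → ℝ) :=
      { toFun := fun y => p.removeNth (T (p.insertNth 0 y))
        map_add' := fun y w => by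
          rw [show (p.insertNth 0 (y + w) : Fin (m + 3 + 1) → ℝ)
            = p.insertNth 0 y + p.insertNth 0 w by
              funext i; refine p.succAboveCases ?_ (fun j => ?_) i <;> simp, map_add]
          rfl
        map_smul' := fun c y => by
          rw [show (p.insertNth 0 (c • y) : Fin (m + 3 + 1) → ℝ) = c • p.insertNth 0 y by
            funext i; refine p.succAboveCases ?_ (fun j => ?_) i <;> simp, map_smul]
          rfl }
    have hins : ∀ z y, T (p.insertNth z y) = p.insertNth z (T' y) := by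
      intro z y
      have e : (p.insertNth z y : Fin (m + 3 + 1) → ℝ)
          = p.insertNth 0 y + z • (Pi.single p 1 : Fin (m + 3 + 1) → ℝ) := by
        funext i; refine p.succAboveCases ?_ (fun j => ?_) i <;> simp
      rw [e, map_add, map_smul, hfe]
      funext i
      refine p.succAboveCases ?_ (fun j => ?_) i
      · simp [hfc]
      · simp [T', Fin.removeNth]
    set S' : Finset (Fin (m + 3)) := Finset.univ.filter fun j => p.succAbove j ∈ S
    have hS' : S'.card = m := by
      have himg : S'.image p.succAbove = S.erase p := by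
        ext i
        simp only [S', Finset.mem_image, Finset.mem_filter, Finset.mem_univ, true_and,
          Finset.mem_erase]
        refine ⟨fun ⟨j, hj, he⟩ => he ▸ ⟨Fin.succAbove_ne p j, hj⟩, fun ⟨hne, hi⟩ => ?_⟩
        obtain ⟨j, rfl⟩ := Fin.exists_succAbove_eq hne
        exact ⟨j, hi, rfl⟩
      rw [← Finset.card_image_of_injective S' Fin.succAbove_right_injective, himg,
        Finset.card_erase_of_mem hp, hS]
      rfl
    have hT'inj : Injective T' := by
      intro y w h
      have := hTinj ((hins 0 y).trans ((congrArg (p.insertNth 0) h).trans (hins 0 w).symm))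
      exact (Fin.insertNth_inj.1 this).2
    have hT'S : ∀ i ∈ S', Fixes T' i := by
      intro i hi
      obtain ⟨he, hc⟩ := hTS _ (Finset.mem_filter.1 hi).2
      refine ⟨?_, fun y => ?_⟩
      · have h := hins 0 (Pi.single i 1)
        rw [show (p.insertNth 0 (Pi.single i 1) : Fin (m + 3 + 1) → ℝ)
          = Pi.single (p.succAbove i) 1 by
            funext k; refine p.succAboveCases ?_ (fun j => ?_) k
            · simp [(Fin.succAbove_ne p i).symm]
            · simp [Pi.single_apply], he] at h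
        funext j
        have := congrFun h (p.succAbove j)
        simp [Pi.single_apply] at this ⊢
        exact this.symm
      · have := hc (p.insertNth 0 y)
        rwa [hins, Fin.insertNth_apply_succAbove, Fin.insertNth_apply_succAbove] at this
    have split : ∀ x : Fin (m + 3 + 1) → ℝ, T x = p.insertNth (x p) (T' (p.removeNth x)) :=
      fun x => by rw [← hins, Fin.insertNth_self_removeNth]
    have hT'1 : ∃ y, T' y ≠ y := by
      by_contra! h
      obtain ⟨x, hx⟩ := hT1
      exact hx (by rw [split, h, Fin.insertNth_self_removeNth])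
    have hT'2 : ∃ y, T' y ≠ negOff S' y := by
      by_contra! h
      obtain ⟨x, hx⟩ := hT2
      refine hx ?_
      rw [split, h]
      funext i
      refine p.succAboveCases ?_ (fun j => ?_) i
      · simp [negOff, hp]
      · simp [negOff, S', Fin.removeNth]
    have hW := ctr_half hK hL
    have hm : ∀ A : Set (Fin (m + 3 + 1) → ℝ), IsCompact A →
        Measurable fun s => ENNReal.ofReal (Real.exp s) * volume (sec p A (Real.exp s)) :=
      fun A hA => Real.measurable_exp.ennreal_ofReal.mul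
        ((measurable_sec_volume p hA.measurableSet).comp Real.measurable_exp)
    have key := P047.Disproof.prekopa_real (hm K hK.compact) (hm L hL.compact) (hm _ hW.compact)
      fun a b => by
        rcases (sec p K (Real.exp a)).eq_empty_or_nonempty with ha | ha
        · simp [ha]
        rcases (sec p L (Real.exp b)).eq_empty_or_nonempty with hb | hb
        · simp [hb]
        have h1 := ih S' hS' T' hT'inj hT'S hT'1 hT'2 _ _ (ctr_sec hK (hSK p hp) ha)
          (ctr_sec hL (hSL p hp) hb)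
          (fun j hj => flipInv_sec (hSK _ (Finset.mem_filter.1 hj).2) _)
          (fun j hj => flipInv_sec (hSL _ (Finset.mem_filter.1 hj).2) _)
          (image_sec hins hTK _) (image_sec hins hTL _)
        have h2 := h1.trans (pow_le_pow_left' (measure_mono (sec_half hK hL (hSK p hp) (hSL p hp)
          (Real.exp_pos a).le (Real.exp_pos b).le ha hb)) 2)
        have hmid : √(Real.exp a * Real.exp b) = Real.exp ((a + b) / 2) := by
          rw [← Real.exp_add, ← Real.exp_half]
        rw [hmid] at h2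
        rw [mul_mul_mul_comm, mul_pow, ← ENNReal.ofReal_mul (Real.exp_pos a).le, ← Real.exp_add,
          ← ENNReal.ofReal_pow (Real.exp_pos _).le, ← Real.exp_nat_mul,
          show ((2 : ℕ) : ℝ) * ((a + b) / 2) = a + b by push_cast; ring]
        exact mul_le_mul_right h2 _
    rw [volume_eq_exp p hK (hSK p hp), volume_eq_exp p hL (hSL p hp),
      volume_eq_exp p hW (flipInv_half hK hL (hSK p hp) (hSL p hp)),
      mul_mul_mul_comm, mul_pow, sq (2 : ℝ≥0∞)]
    exact mul_le_mul_right key _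

/-- Transfer along a linear equivalence, in every dimension. -/
theorem comb_le_equiv (e : (Fin n → ℝ) ≃ₗ[ℝ] (Fin n → ℝ)) {K L : Set (Fin n → ℝ)} {l : ℝ}
    (hl : l ∈ Icc (0 : ℝ) 1)
    (h : volume (e '' K) ^ (1 - l) * volume (e '' L) ^ l ≤ volume (comb l (e '' K) (e '' L))) :
    volume K ^ (1 - l) * volume L ^ l ≤ volume (comb l K L) := by
  set d := ENNReal.ofReal |LinearMap.det e.toLinearMap|
  have hd0 : d ≠ 0 := by simp [d, (LinearEquiv.isUnit_det' e).ne_zero]
  have hvol : ∀ A, volume (e '' A) = d * volume A := fun A =>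
    Measure.addHaar_image_linearMap volume e.toLinearMap A
  set tr : (Fin n → ℝ) → (Fin n → ℝ) := fun u j => u ⬝ᵥ e.symm (Pi.single j 1)
  have hdot : ∀ u x, u ⬝ᵥ x = tr u ⬝ᵥ e x := by
    intro u x
    conv_lhs => rw [← e.symm_apply_apply x, ← Finset.univ_sum_single (e x), map_sum, dotProduct_sum]
    refine Finset.sum_congr rfl fun j _ => ?_
    rw [show Pi.single j (e x j) = e x j • (Pi.single j (1 : ℝ) : Fin n → ℝ) by
      rw [← Pi.single_smul, smul_eq_mul, mul_one], map_smul, dotProduct_smul, smul_eq_mul]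
    simp [tr, mul_comm]
  have hsupp : ∀ (A : Set (Fin n → ℝ)) u, supp (e '' A) (tr u) = supp A u := by
    intro A u
    simp only [supp, Set.image_image, ← hdot]
  have hsub : comb l (e '' K) (e '' L) ⊆ e '' comb l K L := by
    intro y hy
    refine ⟨e.symm y, fun u => ?_, e.apply_symm_apply y⟩
    show u ⬝ᵥ e.symm y ≤ supp K u ^ (1 - l) * supp L u ^ l
    rw [hdot, e.apply_symm_apply, ← hsupp K u, ← hsupp L u]
    exact hy _
  have h' := h.trans (measure_mono hsub)
  rw [hvol, hvol, hvol, ENNReal.mul_rpow_of_nonneg _ _ (sub_nonneg.2 hl.2),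
    ENNReal.mul_rpow_of_nonneg _ _ hl.1, mul_mul_mul_comm,
    ← ENNReal.rpow_add _ _ hd0 ENNReal.ofReal_ne_top, sub_add_cancel, ENNReal.rpow_one] at h'
  exact (ENNReal.mul_le_mul_iff_right hd0 ENNReal.ofReal_ne_top).1 h'

/-- Reflections of a basis and a symmetry of the complementary space, all exponents. -/
theorem comb_le_higher {m : ℕ} {S : Finset (Fin (m + 3))} (hS : S.card = m)
    (bs : Module.Basis (Fin (m + 3)) ℝ (Fin (m + 3) → ℝ))
    {T : (Fin (m + 3) → ℝ) →ₗ[ℝ] (Fin (m + 3) → ℝ)} (hTinj : Injective T)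
    (hTS : ∀ i ∈ S, T (bs i) = bs i ∧ ∀ x, bs.equivFun (T x) i = bs.equivFun x i)
    (hT1 : ∃ x, T x ≠ x) (hT2 : ∃ x, bs.equivFun (T x) ≠ negOff S (bs.equivFun x))
    {K L : Set (Fin (m + 3) → ℝ)} (hK : Ctr K) (hL : Ctr L)
    (hSK : ∀ i ∈ S, ∀ x ∈ K, x - (2 * bs.equivFun x i) • bs i ∈ K)
    (hSL : ∀ i ∈ S, ∀ x ∈ L, x - (2 * bs.equivFun x i) • bs i ∈ L)
    (hTK : T '' K = K) (hTL : T '' L = L) (hKv : volume K ≠ 0) (hLv : volume L ≠ 0) {l : ℝ}
    (hl : l ∈ Icc (0 : ℝ) 1) : volume K ^ (1 - l) * volume L ^ l ≤ volume (comb l K L) := by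
  set e := bs.equivFun
  refine comb_le_equiv e hl ?_
  set T₀ : (Fin (m + 3) → ℝ) →ₗ[ℝ] (Fin (m + 3) → ℝ) :=
    e.toLinearMap ∘ₗ T ∘ₗ e.symm.toLinearMap
  have hT₀ : ∀ x, T₀ (e x) = e (T x) := fun x => by simp [T₀]
  have hinj : Injective T₀ := e.injective.comp (hTinj.comp e.symm.injective)
  have hfix : ∀ i ∈ S, Fixes T₀ i := by
    intro i hi
    obtain ⟨h1, h2⟩ := hTS i hi
    have he : e (bs i) = Pi.single i 1 := by
      funext j; simp [e, Module.Basis.equivFun_self, Pi.single_apply, eq_comm]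
    refine ⟨by rw [← he, hT₀, h1], fun x => ?_⟩
    rw [← e.apply_symm_apply x, hT₀]
    exact h2 _
  have him : ∀ A, T '' A = A → T₀ '' (e '' A) = e '' A := fun A hA => by
    conv_rhs => rw [← hA]
    simp only [Set.image_image, hT₀]
  have hec : Continuous e := e.toLinearMap.continuous_of_finiteDimensional
  have hctr : ∀ A, Ctr A → Ctr (e '' A) := fun A hA =>
    { compact := hA.compact.image hec
      convex := hA.convex.linear_image e.toLinearMap
      nonempty := hA.nonempty.image e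
      neg_mem := by
        rintro _ ⟨a, ha, rfl⟩
        exact ⟨-a, hA.neg_mem a ha, map_neg e a⟩ }
  have hflip : ∀ A, (∀ i ∈ S, ∀ x ∈ A, x - (2 * e x i) • bs i ∈ A) →
      ∀ i ∈ S, FlipInv i (e '' A) := by
    rintro A hA i hi _ ⟨x, hx, rfl⟩
    refine ⟨_, hA i hi x hx, ?_⟩
    funext j
    rw [map_sub, map_smul]
    rcases eq_or_ne j i with rfl | h
    · simp [e, flip]; ring
    · simp [e, flip, h]
  have hv : ∀ A, volume A ≠ 0 → volume (e '' A) ≠ 0 := fun A hA => by
    rw [show volume (e '' A) = ENNReal.ofReal |LinearMap.det e.toLinearMap| * volume A from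
      Measure.addHaar_image_linearMap volume e.toLinearMap A]
    exact mul_ne_zero (by simp [(LinearEquiv.isUnit_det' e).ne_zero]) hA
  refine comb_le (fun A => Ctr A ∧ (∀ i ∈ S, FlipInv i A) ∧ T₀ '' A = A) (fun _ h => h.1)
    (fun A B l hA hB => ⟨ctr_comb hA.1 hB.1 l,
      fun i hi => flipInv_comb hA.1 hB.1 l (hA.2.1 i hi) (hB.2.1 i hi),
      linear_comb_inv hinj hA.2.2 hB.2.2 l⟩)
    (fun A B hA hB => half_le_higher m S hS T₀ hinj hfix ?_ ?_ A B hA.1 hB.1 hA.2.1 hB.2.1
      hA.2.2 hB.2.2)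
    ⟨hctr K hK, hflip K hSK, him K hTK⟩ ⟨hctr L hL, hflip L hSL, him L hTL⟩
    (hv K hKv) (hv L hLv) hl
  · obtain ⟨x, hx⟩ := hT1
    exact ⟨e x, by rw [hT₀]; exact fun h => hx (e.injective h)⟩
  · obtain ⟨x, hx⟩ := hT2
    exact ⟨e x, by rwa [hT₀]⟩

end

end Vale.Agent.P227.Rot
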