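import Vale.Agent.P227.Rot.Scalar

/-!
# P227, rotations: the area of a polygon with equally spaced normals
-/

namespace Vale.Agent.P227.Rot

open MeasureTheory Set Matrix Real Finset
open scoped ENNReal

noncomputable section

/-- The unit vector of angle `t`. -/
def dir (t : ℝ) : Fin 2 → ℝ := ![cos t, sin t]

theorem dir_dot (t : ℝ) (x : Fin 2 → ℝ) : dir t ⬝ᵥ x = cos t * x 0 + sin t * x 1 := by
  simp [dir, dotProduct, Fin.sum_univ_two]

/-- The polygon with `2 M` normals. -/
def poly (θ : ℝ) (f : ℤ → ℝ) : Set (Fin 2 → ℝ) := {x | ∀ j : ℤ, dir (j * θ) ⬝ᵥ x ≤ f j}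

/-- The standard triangle. -/
def tri : Set (Fin 2 → ℝ) := {p | 0 ≤ p 0 ∧ p 0 ≤ 1 ∧ 0 ≤ p 1 ∧ p 1 ≤ p 0}

theorem isCompact_tri : IsCompact tri := by
  refine (isCompact_univ_pi fun _ : Fin 2 => isCompact_Icc (a := (0 : ℝ))
    (b := 1)).of_isClosed_subset
    ?_ fun p hp i _ => ?_
  · exact (isClosed_le continuous_const (continuous_apply 0)).inter
      ((isClosed_le (continuous_apply 0) continuous_const).inter
        ((isClosed_le continuous_const (continuous_apply 1)).inter
          (isClosed_le (continuous_apply 1) (continuous_apply 0))))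
  · obtain ⟨h0, h1, h2, h3⟩ := hp
    fin_cases i
    · exact ⟨h0, h1⟩
    · exact ⟨h2, h3.trans h1⟩

theorem volume_tri : volume tri = ENNReal.ofReal (1 / 2) := by
  have mp := (volume_preserving_finTwoArrow ℝ).symm
  rw [← mp.measure_preimage isCompact_tri.measurableSet.nullMeasurableSet, Measure.volume_eq_prod,
    Measure.prod_apply (mp.measurable isCompact_tri.measurableSet)]
  have hsec : ∀ z : ℝ, volume (Prod.mk z ⁻¹' ((MeasurableEquiv.finTwoArrow (α := ℝ)).symm ⁻¹' tri))
      = (Set.Icc (0 : ℝ) 1).indicator (fun z => ENNReal.ofReal z) z := by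
    intro z
    by_cases hz : z ∈ Set.Icc (0 : ℝ) 1
    · rw [Set.indicator_of_mem hz]
      have : Prod.mk z ⁻¹' ((MeasurableEquiv.finTwoArrow (α := ℝ)).symm ⁻¹' tri)
          = Set.Icc 0 z := by
        ext w; simp [tri, MeasurableEquiv.finTwoArrow, hz.1, hz.2]
      rw [this, Real.volume_Icc, sub_zero]
    · rw [Set.indicator_of_notMem hz, measure_eq_zero_iff_ae_notMem]
      refine Filter.Eventually.of_forall fun w hw => hz ?_
      simp [tri, MeasurableEquiv.finTwoArrow] at hw
      exact ⟨hw.1, hw.2.1⟩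
  simp only [hsec]
  rw [lintegral_indicator measurableSet_Icc,
    show ∫⁻ z in Set.Icc (0 : ℝ) 1, ENNReal.ofReal z
        = ENNReal.ofReal (∫ z in Set.Icc (0 : ℝ) 1, z) from
      (ofReal_integral_eq_lintegral_ofReal (continuous_id.integrableOn_Icc)
        ((ae_restrict_iff' measurableSet_Icc).2
          (Filter.Eventually.of_forall fun z hz => hz.1))).symm]
  congr 1
  rw [integral_Icc_eq_integral_Ioc, ← intervalIntegral.integral_of_le zero_le_one, integral_id]
  norm_num

theorem sturm_nat {θ : ℝ} (hθ : 0 < θ) (G : ℕ → ℝ) (h0 : G 0 = 0) (h1 : G 1 = 0)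
    (hconv : ∀ d, 2 * cos θ * G (d + 1) ≤ G d + G (d + 2)) :
    ∀ d : ℕ, (d : ℝ) * θ ≤ π → 0 ≤ G d := by
  have hW : ∀ d : ℕ, (d : ℝ) * θ ≤ π →
      G d * sin ((d + 1 : ℝ) * θ) ≤ G (d + 1) * sin (d * θ) := by
    intro d
    induction d with
    | zero => intro _; simp [h0]
    | succ d ih =>
      intro hd
      push_cast at hd ⊢
      have hi := ih (by nlinarith)
      have hs : 0 ≤ sin ((d + 1 : ℝ) * θ) := sin_nonneg_of_nonneg_of_le_pi (by positivity) hd
      have e1 : sin ((d + 1 + 1 : ℝ) * θ) = 2 * cos θ * sin ((d + 1 : ℝ) * θ) - sin (d * θ) := by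
        rw [show (d + 1 + 1 : ℝ) * θ = (d + 1 : ℝ) * θ + θ by ring,
          show (d : ℝ) * θ = (d + 1 : ℝ) * θ - θ by ring, sin_add, sin_sub]
        ring
      have := mul_le_mul_of_nonneg_right (hconv d) hs
      rw [e1]
      nlinarith
  intro d
  induction d using Nat.strong_induction_on with
  | _ d ih =>
    intro hd
    match d, ih, hd with
    | 0, _, _ => rw [h0]
    | 1, _, _ => rw [h1]
    | d + 2, ih, hd =>
      push_cast at hd
      have hi := ih (d + 1) (by omega) (by push_cast; linarith)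
      have := hW (d + 1) (by push_cast; linarith)
      push_cast at this
      have hs0 : 0 < sin ((d + 1 : ℝ) * θ) :=
        sin_pos_of_pos_of_lt_pi (by positivity) (by linarith)
      have hs1 : 0 ≤ sin ((d + 1 + 1 : ℝ) * θ) :=
        sin_nonneg_of_nonneg_of_le_pi (by positivity) (by linarith)
      exact nonneg_of_mul_nonneg_left (le_trans (mul_nonneg hi hs1) this) hs0

theorem sturm {M : ℕ} (hM : 2 ≤ M) {θ : ℝ} (hθ : M * θ = π) (G : ℤ → ℝ)
    (hper : ∀ j, G (j + 2 * M) = G j) (h0 : G 0 = 0) (h1 : G 1 = 0)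
    (hconv : ∀ d, 2 * cos θ * G d ≤ G (d - 1) + G (d + 1)) (d : ℤ) : 0 ≤ G d := by
  have hM' : (2 : ℝ) ≤ M := by exact_mod_cast hM
  have hθ0 : 0 < θ := by nlinarith [pi_pos]
  have hp : Function.Periodic G (2 * (M : ℤ)) := hper
  have key : G d = G (d % (2 * M)) := by
    have h := hp.int_mul (d / (2 * M)) (d % (2 * M))
    rwa [Int.cast_id, show d % (2 * (M : ℤ)) + d / (2 * M) * (2 * M) = d by
      linarith [Int.emod_add_mul_ediv d (2 * (M : ℤ))]] at h
  have hr0 := Int.emod_nonneg d (show (2 * (M : ℤ)) ≠ 0 by omega)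
  have hr1 := Int.emod_lt_of_pos d (show (0 : ℤ) < 2 * M by omega)
  rw [key]
  obtain ⟨e, he⟩ := Int.eq_ofNat_of_zero_le hr0
  rw [he] at hr1 ⊢
  rcases le_or_gt e M with hle | hgt
  · refine sturm_nat hθ0 (fun n => G n) (by simpa using h0) (by simpa using h1) (fun n => ?_) e ?_
    · have := hconv (n + 1)
      push_cast
      rwa [add_sub_cancel_right, add_assoc] at this
    · rw [← hθ]; gcongr
  · obtain ⟨n, hn⟩ : ∃ n : ℕ, (n : ℤ) = 2 * M + 1 - e := ⟨2 * M + 1 - e, by omega⟩
    have hnM : n ≤ M := by omega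
    have := sturm_nat hθ0 (fun n => G (1 - n)) (by simpa using h1) (by simpa using h0)
      (fun k => by
        have := hconv (1 - (k + 1 : ℤ))
        push_cast
        rw [show (1 : ℤ) - (k + 1) - 1 = 1 - (k + 2) by ring,
          show (1 : ℤ) - (k + 1) + 1 = 1 - k by ring] at this
        linarith) n (by rw [← hθ]; gcongr)
    rwa [show (e : ℤ) = (1 - n) + 2 * M by omega, hper]

theorem cos_succ (θ φ : ℝ) : cos (φ - θ) + cos (φ + θ) = 2 * cos θ * cos φ := by
  rw [cos_add, cos_sub]; ring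

theorem sin_succ (θ φ : ℝ) : sin (φ - θ) + sin (φ + θ) = 2 * cos θ * sin φ := by
  rw [sin_add, sin_sub]; ring

theorem volume_poly {M : ℕ} (hM : 2 ≤ M) {θ : ℝ} (hθ : M * θ = π) {f : ℤ → ℝ}
    (hper : ∀ j, f (j + 2 * M) = f j) (hpos : ∀ j, 0 < f j)
    (hconv : ∀ j, 2 * cos θ * f j ≤ f (j - 1) + f (j + 1)) :
    volume (poly θ f) = ENNReal.ofReal (-(energy θ f 0 (2 * M)) / 2) := by
  have hM' : (2 : ℝ) ≤ M := by exact_mod_cast hM
  have hθ0 : 0 < θ := by nlinarith [pi_pos]
  have hθπ : θ < π := by nlinarith [pi_pos]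
  set s := sin θ
  set c := cos θ
  have hs : 0 < s := sin_pos_of_pos_of_lt_pi hθ0 hθπ
  set a : ℤ → ℝ := fun j => (c * f j - f (j - 1)) / s
  set b : ℤ → ℝ := fun j => (f (j + 1) - c * f j) / s
  set l : ℤ → ℝ := fun j => (f (j - 1) + f (j + 1) - 2 * c * f j) / s
  have hl : ∀ j, 0 ≤ l j := fun j => div_nonneg (by linarith [hconv j]) hs.le
  have hab : ∀ j, b j = a j + l j := fun j => by simp only [a, b, l]; ring
  have hfull : ∀ j : ℤ, (j + 2 * M : ℤ) * θ = (j : ℝ) * θ + 2 * π := fun j => by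
    push_cast; linear_combination 2 * hθ
  have vert : ∀ j i : ℤ, f j * cos ((i - j : ℤ) * θ) + b j * sin ((i - j : ℤ) * θ) ≤ f i
      ∧ f j * cos ((i - j : ℤ) * θ) + a j * sin ((i - j : ℤ) * θ) ≤ f i := by
    intro j i
    have main : ∀ (e : ℤ) (β : ℝ), f (j + e) = f j * cos (e * θ) + β * sin (e * θ) →
        f (j + (1 + e)) = f j * cos (((1 + e : ℤ) : ℝ) * θ) + β * sin (((1 + e : ℤ) : ℝ) * θ) →
        ∀ d : ℤ, f j * cos (d * θ) + β * sin (d * θ) ≤ f (j + d) := by
      intro e β h0 h1 d
      have := sturm hM hθ (fun d => f (j + (d + e)) - f j * cos (((d + e : ℤ) : ℝ) * θ)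
        - β * sin (((d + e : ℤ) : ℝ) * θ)) (fun d => by
          rw [show d + 2 * (M : ℤ) + e = d + e + 2 * M by ring, ← add_assoc, hper, hfull,
            cos_add_two_pi, sin_add_two_pi])
        (by simp only [zero_add]; linarith) (by linarith) (fun d => by
          have h2 := cos_succ θ (((d + e : ℤ) : ℝ) * θ)
          have h3 := sin_succ θ (((d + e : ℤ) : ℝ) * θ)
          have h4 := hconv (j + (d + e))
          rw [show d - 1 + e = d + e - 1 by ring, show d + 1 + e = d + e + 1 by ring,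
            show j + (d + e - 1) = j + (d + e) - 1 by ring,
            show j + (d + e + 1) = j + (d + e) + 1 by ring]
          push_cast at h2 h3 ⊢
          rw [sub_mul, one_mul, add_mul _ (1 : ℝ), one_mul]
          linear_combination h4 + f j * h2 + β * h3) (d - e)
      simp only [sub_add_cancel] at this
      linarith
    have hi : i = j + (i - j) := by ring
    constructor
    · have := main 0 (b j) (by simp) (by
        simp only [add_zero, Int.cast_one, one_mul]
        simp only [b]; field_simp; ring) (i - j)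
      rwa [← hi] at this
    · have := main (-1) (a j) (by
        push_cast
        rw [neg_one_mul, cos_neg, sin_neg, ← sub_eq_add_neg]
        simp only [a]; field_simp; ring) (by simp) (i - j)
      rwa [← hi] at this
  set T : ℤ → (Fin 2 → ℝ) →ₗ[ℝ] (Fin 2 → ℝ) := fun j => Matrix.toLin'
    !![f j * cos (j * θ) - a j * sin (j * θ), -(l j * sin (j * θ));
      f j * sin (j * θ) + a j * cos (j * θ), l j * cos (j * θ)]
  have hT : ∀ (j i : ℤ) p, dir (i * θ) ⬝ᵥ T j p = p 0 * f j * cos ((i - j : ℤ) * θ)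
      + (p 0 * a j + p 1 * l j) * sin ((i - j : ℤ) * θ) := by
    intro j i p
    rw [dir_dot]
    simp only [T, Matrix.toLin'_apply, Matrix.mulVec, dotProduct, Fin.sum_univ_two]
    simp
    rw [sub_mul (i : ℝ) (j : ℝ) θ, cos_sub, sin_sub]
    ring
  have hdet : ∀ j, LinearMap.det (T j) = f j * l j := fun j => by
    simp only [T, LinearMap.det_toLin', Matrix.det_fin_two_of]
    linear_combination (f j * l j) * sin_sq_add_cos_sq ((j : ℝ) * θ)
  have hvolT : ∀ j, volume (T j '' tri) = ENNReal.ofReal (f j * l j / 2) := fun j => by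
    rw [Measure.addHaar_image_linearMap volume (T j), hdet, volume_tri,
      abs_of_nonneg (mul_nonneg (hpos j).le (hl j)),
      ← ENNReal.ofReal_mul (mul_nonneg (hpos j).le (hl j))]
    ring_nf
  have hle : ∀ (j i : ℤ) (p : Fin 2 → ℝ), p ∈ tri → dir (i * θ) ⬝ᵥ T j p ≤ p 0 * f i := by
    rintro j i p ⟨h0, -, h2, h3⟩
    obtain ⟨hb, ha⟩ := vert j i
    rw [hT]
    have e : p 0 * f j * cos ((i - j : ℤ) * θ) + (p 0 * a j + p 1 * l j) * sin ((i - j : ℤ) * θ)
        = p 1 * (f j * cos ((i - j : ℤ) * θ) + b j * sin ((i - j : ℤ) * θ))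
          + (p 0 - p 1) * (f j * cos ((i - j : ℤ) * θ) + a j * sin ((i - j : ℤ) * θ)) := by
      rw [hab]; ring
    rw [e]
    calc _ ≤ p 1 * f i + (p 0 - p 1) * f i :=
          add_le_add (mul_le_mul_of_nonneg_left hb h2)
            (mul_le_mul_of_nonneg_left ha (sub_nonneg.2 h3))
      _ = _ := by ring
  set R := Finset.range (2 * M)
  have hunion : poly θ f = ⋃ j ∈ R, T (j : ℤ) '' tri := by
    refine Set.Subset.antisymm (fun x hx => ?_) (Set.iUnion₂_subset fun j _ => ?_)
    · obtain ⟨j, hj, hmax⟩ := R.exists_max_image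
        (fun j : ℕ => dir ((j : ℤ) * θ) ⬝ᵥ x / f j) ⟨0, Finset.mem_range.2 (by omega)⟩
      have hmax' : ∀ i : ℤ, dir (i * θ) ⬝ᵥ x * f j ≤ dir ((j : ℤ) * θ) ⬝ᵥ x * f i := by
        intro i
        have hp : Function.Periodic f (2 * (M : ℤ)) := hper
        have hdp : Function.Periodic (fun i : ℤ => dir (i * θ) ⬝ᵥ x) (2 * (M : ℤ)) := fun i => by
          simp only [hfull, dir, cos_add_two_pi, sin_add_two_pi]
        obtain ⟨e, he⟩ := Int.eq_ofNat_of_zero_le
          (Int.emod_nonneg i (show (2 * (M : ℤ)) ≠ 0 by omega))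
        have he1 : e < 2 * M := by
          have := Int.emod_lt_of_pos i (show (0 : ℤ) < 2 * M by omega)
          omega
        have hi := Int.emod_add_mul_ediv i (2 * (M : ℤ))
        have e1 := hp.int_mul (i / (2 * M)) e
        have e2 := hdp.int_mul (i / (2 * M)) e
        simp only [Int.cast_id] at e1 e2
        rw [show (e : ℤ) + i / (2 * (M : ℤ)) * (2 * M) = i by linarith] at e1 e2
        have := hmax e (Finset.mem_range.2 he1)
        rw [div_le_div_iff₀ (hpos _) (hpos _)] at this
        rw [e1, e2]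
        exact this
      set z := dir ((j : ℤ) * θ) ⬝ᵥ x with hz
      set w := -sin ((j : ℤ) * θ) * x 0 + cos ((j : ℤ) * θ) * x 1
      have hx' : ∀ d : ℤ, dir (((j : ℤ) + d : ℤ) * θ) ⬝ᵥ x = z * cos (d * θ) + w * sin (d * θ) := by
        intro d
        simp only [z, w, dir_dot]
        push_cast
        rw [add_mul, cos_add, sin_add]
        ring
      have hz0 : 0 ≤ z := by
        have h := hmax' ((j : ℤ) + M)
        rw [hx', show ((M : ℤ) : ℝ) * θ = π by push_cast; exact hθ, cos_pi, sin_pi, mul_zero,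
          add_zero] at h
        nlinarith [hpos j, hpos ((j : ℤ) + M)]
      have hq : z / f j * f j = z := div_mul_cancel₀ _ (hpos _).ne'
      have hup : z / f j * a j ≤ w ∧ w ≤ z / f j * b j := by
        have h1 := hmax' ((j : ℤ) + 1)
        have h2 := hmax' ((j : ℤ) - 1)
        rw [hx', Int.cast_one, one_mul] at h1
        rw [sub_eq_add_neg, hx', Int.cast_neg, Int.cast_one, neg_one_mul, cos_neg, sin_neg,
          ← sub_eq_add_neg] at h2
        have hf := hpos (j : ℤ)
        constructor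
        · rw [show z / f j * a j = (z * (c * f j - f ((j : ℤ) - 1))) / (f j * s) by
            simp only [a]; field_simp, div_le_iff₀ (mul_pos hf hs)]
          linarith
        · rw [show z / f j * b j = (z * (f ((j : ℤ) + 1) - c * f j)) / (f j * s) by
            simp only [b]; field_simp, le_div_iff₀ (mul_pos hf hs)]
          linarith
      have hp0 : z / f j ≤ 1 := (div_le_one (hpos _)).2 (hx j)
      obtain ⟨q, hq0, hq1, hqw⟩ : ∃ q, 0 ≤ q ∧ q ≤ z / f j ∧ z / f j * a j + q * l j = w := by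
        rcases (hl j).eq_or_lt with h | h
        · refine ⟨0, le_rfl, div_nonneg hz0 (hpos _).le, ?_⟩
          have := hup.2
          rw [hab, ← h, add_zero] at this
          linarith [hup.1]
        · refine ⟨(w - z / f j * a j) / l j, div_nonneg (by linarith [hup.1]) h.le, ?_, ?_⟩
          · rw [div_le_iff₀ h]
            have := hup.2
            rw [hab, mul_add] at this
            linarith
          · rw [div_mul_cancel₀ _ h.ne']; ring
      refine Set.mem_biUnion hj ⟨![z / f j, q], ⟨by simpa using div_nonneg hz0 (hpos _).le,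
        by simpa using hp0, by simpa using hq0, by simpa using hq1⟩, ?_⟩
      have hs2 := sin_sq_add_cos_sq (((j : ℤ) : ℝ) * θ)
      have hzd : z = cos ((j : ℤ) * θ) * x 0 + sin ((j : ℤ) * θ) * x 1 := by rw [hz, dir_dot]
      funext i
      fin_cases i
      · simp [T, Matrix.toLin'_apply, Matrix.mulVec, dotProduct, Fin.sum_univ_two]
        push_cast at hs2 hzd
        linear_combination cos ((j : ℝ) * θ) * hq + cos ((j : ℝ) * θ) * hzd
          - sin ((j : ℝ) * θ) * hqw + x 0 * hs2
      · simp [T, Matrix.toLin'_apply, Matrix.mulVec, dotProduct, Fin.sum_univ_two]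
        push_cast at hs2 hzd
        linear_combination sin ((j : ℝ) * θ) * hq + sin ((j : ℝ) * θ) * hzd
          + cos ((j : ℝ) * θ) * hqw + x 1 * hs2
    · rintro _ ⟨p, hp, rfl⟩ i
      exact (hle j i p hp).trans (mul_le_of_le_one_left (hpos i).le hp.2.1)
  have hmeas : ∀ j ∈ R, NullMeasurableSet (T (j : ℤ) '' tri) volume := fun j _ =>
    (isCompact_tri.image
      (T (j : ℤ)).continuous_of_finiteDimensional).measurableSet.nullMeasurableSet
  have hdisj : (R : Set ℕ).Pairwise
      (Function.onFun (AEDisjoint volume) fun j : ℕ => T (j : ℤ) '' tri) := by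
    intro i hi j hj hij
    set φ : (Fin 2 → ℝ) →ₗ[ℝ] ℝ :=
      { toFun := fun x => f j * (dir ((i : ℤ) * θ) ⬝ᵥ x) - f i * (dir ((j : ℤ) * θ) ⬝ᵥ x)
        map_add' := fun x y => by simp [dotProduct_add]; ring
        map_smul' := fun r x => by simp [dotProduct_smul]; ring }
    have hφ : φ.ker ≠ ⊤ := by
      intro h
      have h0 : φ ![1, 0] = 0 := LinearMap.mem_ker.1 (h ▸ Submodule.mem_top)
      have h1 : φ ![0, 1] = 0 := LinearMap.mem_ker.1 (h ▸ Submodule.mem_top)
      simp [φ, dir] at h0 h1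
      have hsin : sin (((i : ℝ) - j) * θ) * f j = 0 := by
        rw [sub_mul, sin_sub]
        linear_combination cos ((j : ℝ) * θ) * h1 - sin ((j : ℝ) * θ) * h0
      have hsin' := (mul_eq_zero.1 hsin).resolve_right (hpos _).ne'
      have hcos : cos (((i : ℝ) - j) * θ) * f j = f i := by
        rw [sub_mul, cos_sub]
        linear_combination cos ((j : ℝ) * θ) * h0 + sin ((j : ℝ) * θ) * h1
          + f i * sin_sq_add_cos_sq ((j : ℝ) * θ)
      obtain ⟨n, hn⟩ := Real.sin_eq_zero_iff.1 hsin'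
      have hn' : ((n * M : ℤ) : ℝ) = ((i : ℤ) - j : ℤ) := by
        push_cast
        have := hθ0.ne'
        refine mul_right_cancel₀ this ?_
        linear_combination hn + (n : ℝ) * hθ
      have hn'' : n * M = (i : ℤ) - j := by exact_mod_cast hn'
      have hiM : i < 2 * M := Finset.mem_range.1 (Finset.mem_coe.1 hi)
      have hjM : j < 2 * M := Finset.mem_range.1 (Finset.mem_coe.1 hj)
      have hb1 : n < 2 := by nlinarith
      have hb2 : -2 < n := by nlinarith
      have hfp := hpos (j : ℤ)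
      have hfi := hpos (i : ℤ)
      interval_cases n
      · rw [← hn] at hcos
        norm_num at hcos
        linarith
      · omega
      · rw [← hn] at hcos
        norm_num at hcos
        linarith
    refine measure_mono_null (fun x hx => ?_) (Measure.addHaar_submodule volume φ.ker hφ)
    obtain ⟨⟨p, hp, hpx⟩, ⟨q, hq, hqx⟩⟩ := hx
    have e1 : dir ((i : ℤ) * θ) ⬝ᵥ x = p 0 * f i := by rw [← hpx, hT]; simp
    have e2 : dir ((j : ℤ) * θ) ⬝ᵥ x = q 0 * f j := by rw [← hqx, hT]; simp
    have e3 := hle i j p hp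
    rw [hpx, e2] at e3
    have e4 := hle j i q hq
    rw [hqx, e1] at e4
    have e5 : p 0 = q 0 := le_antisymm (le_of_mul_le_mul_right e4 (hpos _))
      (le_of_mul_le_mul_right e3 (hpos _))
    show φ x = 0
    simp only [φ, LinearMap.coe_mk, AddHom.coe_mk, e1, e2, e5]
    ring
  rw [hunion, measure_biUnion_finset₀ hdisj hmeas]
  simp only [hvolT]
  rw [← ENNReal.ofReal_sum_of_nonneg fun j _ =>
    div_nonneg (mul_nonneg (hpos _).le (hl _)) zero_le_two, ← Finset.sum_div]
  congr 2
  set g : ℕ → ℝ := fun j => (f j * f ((j : ℤ) - 1) - c * f j ^ 2) / s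
  have htel := Finset.sum_range_sub g (2 * M)
  have hg : g (2 * M) = g 0 := by
    simp only [g]
    have e1 := hper 0
    have e2 := hper (-1)
    push_cast
    rw [zero_add] at e1
    rw [show (2 : ℤ) * M - 1 = -1 + 2 * M by ring, e1, e2]
  rw [hg, sub_self] at htel
  simp only [energy, zero_add, eform]
  rw [← Finset.sum_neg_distrib, ← sub_eq_zero, ← Finset.sum_sub_distrib]
  refine Eq.trans ?_ (neg_eq_zero.2 htel)
  rw [← Finset.sum_neg_distrib]
  refine Finset.sum_congr rfl fun j _ => ?_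
  have hs' : sin θ ≠ 0 := hs.ne'
  simp only [l, g, s, c]
  push_cast
  rw [add_sub_cancel_right]
  field_simp
  ring

end

end Vale.Agent.P227.Rot
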