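import Vale.Agent.P227.Defs
import Vale.Agent.P227.Rot.Polygon

/-!
# P227, rotations: plane bodies with an odd rotational symmetry

Support functions sampled at equally spaced angles.
-/

namespace Vale.Agent.P227.Rot

open MeasureTheory Set Matrix Real Finset
open scoped ENNReal

noncomputable section

/-- The rotation of the plane by the angle `φ`. -/
def rot2 (φ : ℝ) (x : Fin 2 → ℝ) : Fin 2 → ℝ :=
  ![cos φ * x 0 - sin φ * x 1, sin φ * x 0 + cos φ * x 1]

theorem dir_rot2 (t φ : ℝ) (x : Fin 2 → ℝ) : dir t ⬝ᵥ rot2 φ x = dir (t - φ) ⬝ᵥ x := by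
  simp only [dir_dot, rot2, cos_sub, sin_sub, Matrix.cons_val_zero, Matrix.cons_val_one]
  ring

/-- A compact convex plane set invariant under the rotation by `2 π / p`. -/
structure RotBody (p : ℕ) (P : Set (Fin 2 → ℝ)) : Prop where
  compact : IsCompact P
  convex : Convex ℝ P
  nonempty : P.Nonempty
  rot : ∀ x ∈ P, rot2 (2 * π / p) x ∈ P

/-- The support function at an angle. -/
def hA (P : Set (Fin 2 → ℝ)) (t : ℝ) : ℝ := supp P (dir t)

variable {p : ℕ} {P : Set (Fin 2 → ℝ)}

theorem le_hA (hP : RotBody p P) {x : Fin 2 → ℝ} (hx : x ∈ P) (t : ℝ) :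
    dir t ⬝ᵥ x ≤ hA P t :=
  le_csSup (hP.compact.image (continuous_dot _)).bddAbove ⟨x, hx, rfl⟩

theorem exists_hA (hP : RotBody p P) (t : ℝ) : ∃ x ∈ P, dir t ⬝ᵥ x = hA P t :=
  (hP.compact.image (continuous_dot _)).sSup_mem (hP.nonempty.image _)

theorem hA_sub_le (hP : RotBody p P) (t : ℝ) : hA P (t - 2 * π / p) ≤ hA P t := by
  obtain ⟨x, hx, he⟩ := exists_hA hP (t - 2 * π / p)
  rw [← he, ← dir_rot2]
  exact le_hA hP (hP.rot x hx) t

theorem hA_two_pi (t : ℝ) : hA P (t + 2 * π) = hA P t := by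
  simp [hA, dir]

theorem hA_period (hp : 0 < p) (hP : RotBody p P) (t : ℝ) :
    hA P (t + 2 * (π / p)) = hA P t := by
  have hp' : (0 : ℝ) < p := by exact_mod_cast hp
  have iter : ∀ (j : ℕ) (u : ℝ), hA P (u - j * (2 * π / p)) ≤ hA P u := by
    intro j
    induction j with
    | zero => intro u; simp
    | succ j ih =>
      intro u
      refine le_trans (le_of_eq ?_) ((ih (u - 2 * π / p)).trans (hA_sub_le hP u))
      push_cast
      ring_nf
  refine le_antisymm ?_ (le_of_eq_of_le (by congr 1; ring) (hA_sub_le hP _))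
  have h := iter (p - 1) t
  rw [Nat.cast_sub (by omega)] at h
  refine le_of_eq_of_le ?_ h
  rw [← hA_two_pi (t - _)]
  congr 1
  field_simp
  ring

theorem hA_pi (hp : Odd p) (hP : RotBody p P) (t : ℝ) : hA P (t + π) = hA P (t + π / p) := by
  obtain ⟨q, rfl⟩ := hp
  have hper : Function.Periodic (hA P) (2 * (π / ((2 * q + 1 : ℕ) : ℝ))) :=
    fun u => hA_period (by omega) hP u
  have h := hper.nat_mul q (t + π / ((2 * q + 1 : ℕ) : ℝ))
  refine Eq.trans ?_ h
  congr 1
  push_cast
  field_simp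
  ring

theorem hA_convex (hP : RotBody p P) (t u : ℝ) :
    2 * cos u * hA P t ≤ hA P (t - u) + hA P (t + u) := by
  obtain ⟨x, hx, he⟩ := exists_hA hP t
  have h1 := le_hA hP hx (t - u)
  have h2 := le_hA hP hx (t + u)
  rw [← he]
  rw [dir_dot, cos_sub, sin_sub] at h1
  rw [dir_dot, cos_add, sin_add] at h2
  rw [dir_dot]
  linarith

theorem half_le_cos_div (hp : 3 ≤ p) : 1 / 2 ≤ cos (π / p) := by
  rw [← cos_pi_div_three]
  have hp' : (3 : ℝ) ≤ p := by exact_mod_cast hp
  refine cos_le_cos_of_nonneg_of_le_pi (by positivity) (by linarith [pi_pos]) ?_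
  gcongr

theorem hA_opposite_mul (hp : Odd p) (hP : RotBody p P) (t : ℝ) :
    cos (π / p) * hA P (t + π / p) ≤ hA P t := by
  have h := hA_convex hP (t + π) (π / p)
  rw [hA_pi hp hP, show t + π - π / p = (t - π / p) + π by ring, hA_pi hp hP,
    show t + π + π / p = (t + π / p) + π by ring, hA_pi hp hP,
    show t - π / p + π / p = t by ring,
    show t + π / p + π / p = t + 2 * (π / p) by ring, hA_period hp.pos hP] at h
  linarith

theorem hA_pos (hp : Odd p) (hp3 : 3 ≤ p) (hP : RotBody p P) (hv : volume P ≠ 0) (t : ℝ) :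
    0 < hA P t := by
  by_contra! h
  refine hv ?_
  have hc := half_le_cos_div hp3
  have h' : hA P (t + π) ≤ 0 := by
    rw [hA_pi hp hP]
    by_contra! hcon
    nlinarith [hA_opposite_mul hp hP t, mul_pos (show 0 < cos (π / p) by linarith) hcon]
  set φ : (Fin 2 → ℝ) →ₗ[ℝ] ℝ :=
    { toFun := fun x => dir t ⬝ᵥ x
      map_add' := fun x y => dotProduct_add _ x y
      map_smul' := fun r x => dotProduct_smul r _ x }
  have hker : φ.ker ≠ ⊤ := by
    intro hh
    have h0 : φ (dir t) = 0 := LinearMap.mem_ker.1 (hh ▸ Submodule.mem_top)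
    simp [φ, dir] at h0
    nlinarith [sin_sq_add_cos_sq t]
  refine measure_mono_null (fun x hx => ?_) (Measure.addHaar_submodule volume φ.ker hker)
  have h1 := (le_hA hP hx t).trans h
  have h2 := (le_hA hP hx (t + π)).trans h'
  show dir t ⬝ᵥ x = 0
  rw [dir_dot, cos_add_pi, sin_add_pi] at h2
  rw [dir_dot] at h1 ⊢
  linarith

/-- The even part. -/
def mE (p : ℕ) (P : Set (Fin 2 → ℝ)) (t : ℝ) : ℝ := (hA P t + hA P (t + π / p)) / 2

/-- The odd part. -/
def dO (p : ℕ) (P : Set (Fin 2 → ℝ)) (t : ℝ) : ℝ := (hA P (t + π / p) - hA P t) / 2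

theorem mE_add (hp : 0 < p) (hP : RotBody p P) (t : ℝ) : mE p P (t + π / p) = mE p P t := by
  simp only [mE]
  rw [show t + π / p + π / p = t + 2 * (π / p) by ring, hA_period hp hP]
  ring

theorem dO_add (hp : 0 < p) (hP : RotBody p P) (t : ℝ) : dO p P (t + π / p) = -dO p P t := by
  simp only [dO]
  rw [show t + π / p + π / p = t + 2 * (π / p) by ring, hA_period hp hP]
  ring

theorem mE_pos (hp : Odd p) (hp3 : 3 ≤ p) (hP : RotBody p P) (hv : volume P ≠ 0) (t : ℝ) :
    0 < mE p P t := by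
  have := hA_pos hp hp3 hP hv t
  have := hA_pos hp hp3 hP hv (t + π / p)
  simp only [mE]
  linarith

theorem abs_dO_le (hp : Odd p) (hp3 : 3 ≤ p) (hP : RotBody p P) (hv : volume P ≠ 0) (t : ℝ) :
    3 * |dO p P t| ≤ mE p P t := by
  have hc := half_le_cos_div hp3
  have h1 := hA_opposite_mul hp hP t
  have h2 := hA_opposite_mul hp hP (t + π / p)
  rw [show t + π / p + π / p = t + 2 * (π / p) by ring, hA_period hp.pos hP] at h2
  have := hA_pos hp hp3 hP hv t
  have := hA_pos hp hp3 hP hv (t + π / p)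
  simp only [mE, dO]
  rcases abs_cases ((hA P (t + π / p) - hA P t) / 2) with ⟨e, -⟩ | ⟨e, -⟩ <;> rw [e] <;> nlinarith

theorem mE_range (hp : Odd p) (hp3 : 3 ≤ p) (hP : RotBody p P) (hv : volume P ≠ 0) (t u : ℝ) :
    mE p P t ≤ 11548 / 10000 * mE p P u := by
  have hp' : (3 : ℝ) ≤ p := by exact_mod_cast hp3
  set L := π / (p : ℝ) with hL
  have hL0 : 0 < L := by positivity
  have hL3 : L ≤ π / 3 := by rw [hL]; gcongr
  have hper : Function.Periodic (mE p P) L := fun s => mE_add hp.pos hP s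
  set n := ⌊(t - u) / L⌋
  set r := t - u - n * L
  have hr0 : 0 ≤ r := by
    have := (le_div_iff₀ hL0).1 (Int.floor_le ((t - u) / L))
    simp only [r, n]; linarith
  have hr1 : r ≤ L := by
    have := (div_lt_iff₀ hL0).1 (Int.lt_floor_add_one ((t - u) / L))
    simp only [r, n]; linarith
  have ht : mE p P t = mE p P (u + r) := by
    rw [show t = (u + r) + n * L by simp only [r]; ring]
    exact hper.int_mul n (u + r)
  have comb : ∀ s : ℝ, hA P (s + r) * sin L
      ≤ sin (L - r) * hA P s + sin r * hA P (s + L) := by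
    intro s
    obtain ⟨x, hx, he⟩ := exists_hA hP (s + r)
    have e : dir (s + r) ⬝ᵥ x * sin L
        = sin (L - r) * (dir s ⬝ᵥ x) + sin r * (dir (s + L) ⬝ᵥ x) := by
      simp only [dir_dot, cos_add, sin_add, sin_sub]
      ring
    rw [← he, e]
    exact add_le_add (mul_le_mul_of_nonneg_left (le_hA hP hx _)
      (sin_nonneg_of_nonneg_of_le_pi (by linarith) (by linarith [pi_pos])))
      (mul_le_mul_of_nonneg_left (le_hA hP hx _)
        (sin_nonneg_of_nonneg_of_le_pi hr0 (by linarith [pi_pos])))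
  have h1 := comb u
  have h2 := comb (u + L)
  rw [show u + L + L = u + 2 * L by ring, hA_period hp.pos hP,
    show u + L + r = u + r + L by ring] at h2
  have hm : mE p P (u + r) * sin L ≤ (sin (L - r) + sin r) * mE p P u := by
    simp only [mE, ← hL]
    linarith
  have hc : cos (π / 6) ≤ cos (L / 2) :=
    cos_le_cos_of_nonneg_of_le_pi (by linarith) (by linarith [pi_pos]) (by linarith)
  rw [cos_pi_div_six] at hc
  have h3 : (1.732 : ℝ) ≤ √3 := le_sqrt_of_sq_le (by norm_num)
  have hs : 0 < sin (L / 2) := sin_pos_of_pos_of_lt_pi (by linarith) (by linarith [pi_pos])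
  have hsum : sin (L - r) + sin r ≤ 2 * sin (L / 2) := by
    have key : ∀ a b : ℝ, sin (a + b) + sin (a - b) = 2 * sin a * cos b := fun a b => by
      rw [sin_add, sin_sub]; ring
    have e := key (L / 2) (L / 2 - r)
    rw [show L / 2 + (L / 2 - r) = L - r by ring, show L / 2 - (L / 2 - r) = r by ring] at e
    rw [e]
    exact mul_le_of_le_one_right (by linarith) (cos_le_one _)
  have hpos := mE_pos hp hp3 hP hv u
  have hpos' := mE_pos hp hp3 hP hv (u + r)
  have e2 : sin L = 2 * sin (L / 2) * cos (L / 2) := by rw [← sin_two_mul]; ring_nf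
  rw [e2] at hm
  have : mE p P (u + r) * cos (L / 2) ≤ mE p P u := by
    refine le_of_mul_le_mul_left ?_ (mul_pos two_pos hs)
    nlinarith [mul_le_mul_of_nonneg_right hsum hpos.le]
  rw [ht]
  nlinarith [mul_le_mul_of_nonneg_left hc hpos'.le]

/-- The area of a body is at most the area of the polygon of its sampled support values. -/
theorem volume_le (hp : Odd p) (hp3 : 3 ≤ p) (hP : RotBody p P) (hv : volume P ≠ 0)
    {k : ℕ} (hk : 1 ≤ k) :
    volume P ≤ ENNReal.ofReal
      (-(energy (π / (p * k)) (fun i => hA P (i * (π / (p * k)))) 0 (2 * (p * k))) / 2) := by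
  set θ := π / (p * k : ℝ)
  have hθ : ((p * k : ℕ) : ℝ) * θ = π := by
    have : (0 : ℝ) < p := by exact_mod_cast hp.pos
    have : (0 : ℝ) < k := by exact_mod_cast hk
    simp only [θ]
    push_cast
    field_simp
  rw [← volume_poly (M := p * k) (le_trans (show 2 ≤ 3 * 1 by norm_num) (Nat.mul_le_mul hp3 hk)) hθ
    (fun j => ?_) (fun j => hA_pos hp hp3 hP hv _) fun j => ?_]
  · exact measure_mono fun x hx j => le_hA hP hx _
  · show hA P (((j + 2 * (p * k : ℕ) : ℤ) : ℝ) * θ) = _
    rw [show ((j + 2 * (p * k : ℕ) : ℤ) : ℝ) * θ = (j : ℝ) * θ + 2 * π by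
      push_cast at hθ ⊢; linear_combination 2 * hθ, hA_two_pi]
  · push_cast
    rw [sub_mul, one_mul, add_mul, one_mul]
    exact hA_convex hP _ _

end

end Vale.Agent.P227.Rot
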