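import Mathlib

/-!
# P227, rotations: scalar inequalities

The discrete segment bound, the cotangent bound and the pointwise lower bound for the slice
function.
-/

namespace Vale.Agent.P227.Rot

open Real Finset

noncomputable section

/-- The quadratic form of two neighbouring samples with angular step `θ`. -/
def eform (θ a b : ℝ) : ℝ := ((a ^ 2 + b ^ 2) * cos θ - 2 * a * b) / sin θ

/-- The energy of the samples `X i`, `j ≤ i ≤ j + n`. -/
def energy (θ : ℝ) (X : ℤ → ℝ) (j : ℤ) (n : ℕ) : ℝ :=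
  ∑ i ∈ range n, eform θ (X (j + i)) (X (j + i + 1))

theorem eform_step {α β : ℝ} (hα : 0 < sin α) (hβ : 0 < sin β) (hαβ : 0 < sin (α + β))
    (a x b : ℝ) : eform (α + β) a b ≤ eform α a x + eform β x b := by
  have hc := cos_add α β
  have hs := sin_add α β
  have e : eform α a x + eform β x b - eform (α + β) a b
      = (sin (α + β) * x - sin β * a - sin α * b) ^ 2 / (sin α * sin β * sin (α + β)) := by
    simp only [eform]
    field_simp
    rw [hc, hs]
    linear_combination
      (a ^ 2 * sin β ^ 2) * sin_sq_add_cos_sq α + (b ^ 2 * sin α ^ 2) * sin_sq_add_cos_sq β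
  have : 0 ≤ eform α a x + eform β x b - eform (α + β) a b := by rw [e]; positivity
  linarith

theorem eform_le_energy {θ : ℝ} (hθ : 0 < θ) (X : ℤ → ℝ) (j : ℤ) :
    ∀ n : ℕ, 1 ≤ n → n * θ < π → eform (n * θ) (X j) (X (j + n)) ≤ energy θ X j n := by
  intro n hn
  induction n, hn using Nat.le_induction with
  | base => intro _; simp [energy]
  | succ n hn ih =>
    intro hπ
    push_cast at hπ
    have h0 : (0 : ℝ) < n * θ := by positivity
    have h1 : θ ≤ n * θ := le_mul_of_one_le_left hθ.le (by exact_mod_cast hn)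
    have hn' := ih (by linarith)
    have h := eform_step (sin_pos_of_pos_of_lt_pi h0 (by linarith))
      (sin_pos_of_pos_of_lt_pi hθ (by linarith))
      (sin_pos_of_pos_of_lt_pi (by linarith) (by linarith : (n : ℝ) * θ + θ < π))
      (X j) (X (j + n)) (X (j + n + 1))
    rw [show ((n + 1 : ℕ) : ℝ) * θ = n * θ + θ by push_cast; ring,
      show j + ((n + 1 : ℕ) : ℤ) = j + n + 1 by push_cast; ring, energy, sum_range_succ]
    rw [energy] at hn'
    linarith

theorem eform_opposite {x : ℝ} (h0 : 0 < x) (h1 : x < π) (w : ℝ) :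
    eform x w (-w) = 2 * w ^ 2 * (cos (x / 2) / sin (x / 2)) := by
  have hs := sin_pos_of_pos_of_lt_pi (by linarith : 0 < x / 2) (by linarith)
  have hc := cos_pos_of_mem_Ioo (x := x / 2) ⟨by linarith [pi_pos], by linarith⟩
  have e1 : sin x = 2 * sin (x / 2) * cos (x / 2) := by rw [← sin_two_mul]; ring_nf
  have e2 : cos x = 2 * cos (x / 2) ^ 2 - 1 := by rw [← cos_two_mul]; ring_nf
  rw [eform, e1, e2]
  field_simp
  ring

theorem eform_same {x : ℝ} (h0 : 0 < x) (h1 : x < π) (w : ℝ) :
    eform x w w = -(2 * w ^ 2 * (sin (x / 2) / cos (x / 2))) := by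
  have hs := sin_pos_of_pos_of_lt_pi (by linarith : 0 < x / 2) (by linarith)
  have hc := cos_pos_of_mem_Ioo (x := x / 2) ⟨by linarith [pi_pos], by linarith⟩
  have e1 : sin x = 2 * sin (x / 2) * cos (x / 2) := by rw [← sin_two_mul]; ring_nf
  have e2 : cos x = 1 - 2 * sin (x / 2) ^ 2 := by
    have := sin_sq_add_cos_sq (x / 2)
    rw [show x = 2 * (x / 2) by ring, cos_two_mul]
    ring_nf
    ring_nf at this
    linarith
  rw [eform, e1, e2]
  field_simp
  ring

theorem two_cot_le {a b : ℝ} (ha : 0 < a) (hb : 0 < b) (hab : a + b < π) :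
    2 * (cos ((a + b) / 2) / sin ((a + b) / 2)) ≤ cos a / sin a + cos b / sin b := by
  have sa := sin_pos_of_pos_of_lt_pi ha (by linarith)
  have sb := sin_pos_of_pos_of_lt_pi hb (by linarith)
  have sm := sin_pos_of_pos_of_lt_pi (by linarith : 0 < (a + b) / 2) (by linarith)
  have sab := sin_pos_of_pos_of_lt_pi (by linarith : 0 < a + b) hab
  have e : cos a / sin a + cos b / sin b = sin (a + b) / (sin a * sin b) := by
    rw [sin_add]; field_simp; ring
  have e1 : sin (a + b) = 2 * sin ((a + b) / 2) * cos ((a + b) / 2) := by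
    rw [← sin_two_mul]; ring_nf
  have e2 : sin a * sin b ≤ sin ((a + b) / 2) ^ 2 := by
    have h1 : a = (a + b) / 2 + (a - b) / 2 := by ring
    have h2 : b = (a + b) / 2 - (a - b) / 2 := by ring
    set u := (a + b) / 2
    set v := (a - b) / 2
    rw [h1, h2, sin_add, sin_sub]
    nlinarith [sin_sq_add_cos_sq u, sin_sq_add_cos_sq v, sq_nonneg (sin v)]
  rw [e]
  have : 2 * (cos ((a + b) / 2) / sin ((a + b) / 2))
      = sin (a + b) / sin ((a + b) / 2) ^ 2 := by rw [e1]; field_simp
  rw [this]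
  exact div_le_div_of_nonneg_left sab.le (mul_pos sa sb) e2

/-- The key polynomial inequality behind the pointwise bound. -/
theorem case_bound {t M y D L : ℝ} (hM : 0 < M) (hy : 0 ≤ y) (hy2 : 3 * y ≤ M + |D|)
    (hD : |D| ≤ 8 / 100 * M) (hL : M * L = 62 / 100 * y ^ 2 + 55 / 10 * D ^ 2) :
    (M + t * y - L) ^ 2 ≤ (M + D) * (M - D) + (t ^ 2 + 1) * (M + D) * y := by
  have hd1 := (abs_le.1 hD).1
  have hd2 := (abs_le.1 hD).2
  have hyM : y ≤ 36 / 100 * M := by linarith
  have hL0 : 0 ≤ L := by nlinarith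
  have hL1 : L ≤ 12 / 100 * M := by nlinarith
  set a := y * (M + D - y) with ha
  set c := (M + D) * y - D ^ 2 + 2 * M * L - L ^ 2 with hc
  have ha0 : 0 ≤ a := mul_nonneg hy (by linarith)
  have key : y ^ 2 * (M + D) - 2 * y * D * M + D ^ 2 * (M + D - 2 * y)
      ≤ (M + D) * (2 * M * L - L ^ 2) := by
    have h1 : 188 / 100 * (M * L) ≤ 2 * M * L - L ^ 2 := by nlinarith
    have h2 : (M + D) * (188 / 100 * (M * L)) ≤ (M + D) * (2 * M * L - L ^ 2) :=
      mul_le_mul_of_nonneg_left h1 (by linarith)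
    rw [hL] at h2
    nlinarith [mul_nonneg (sq_nonneg (15 / 100 * y + D)) (by linarith : (0 : ℝ) ≤ M),
      mul_nonneg (sq_nonneg y) (by linarith : (0 : ℝ) ≤ M + D - 92 / 100 * M),
      mul_nonneg (sq_nonneg D) (by linarith : (0 : ℝ) ≤ M + D - 92 / 100 * M),
      mul_nonneg (sq_nonneg D) hy]
  have disc : (y * (M - L)) ^ 2 ≤ a * c := by
    have : 0 ≤ (M + D - y) * c - y * (M - L) ^ 2 := by nlinarith
    nlinarith [mul_nonneg hy this]
  suffices 0 ≤ a * t ^ 2 - 2 * t * (y * (M - L)) + c by nlinarith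
  rcases ha0.eq_or_lt with h | h
  · have hy0 : y = 0 := by
      rcases mul_eq_zero.1 h.symm with h | h
      · exact h
      · linarith
    subst hy0
    nlinarith [mul_nonneg hL0 (by linarith : (0 : ℝ) ≤ M - L)]
  · have : 0 ≤ a * (a * t ^ 2 - 2 * t * (y * (M - L)) + c) := by
      nlinarith [sq_nonneg (a * t - y * (M - L))]
    exact nonneg_of_mul_nonneg_right this h

/-- The slice inequality for every shift follows from the two kinks. -/
theorem all_shifts {m n δ ε K : ℝ} (hm : 0 < m) (hn : 0 < n)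
    (h1 : K + δ ≤ √(m * (n + |δ - ε|))) (h2 : K + ε ≤ √((m + |δ - ε|) * n)) (a : ℝ) :
    K + a ≤ √((m + |a - δ|) * (n + |a - ε|)) := by
  have up : ∀ p q d : ℝ, 0 ≤ p → 0 ≤ q → 0 ≤ d → √(p * q) + d ≤ √((p + d) * (q + d)) := by
    intro p q d hp hq hd
    refine le_sqrt_of_sq_le ?_
    have h := sq_sqrt (mul_nonneg hp hq)
    have : 2 * √(p * q) ≤ p + q := by
      nlinarith [sqrt_nonneg (p * q), sq_nonneg (p - q)]
    nlinarith [mul_le_mul_of_nonneg_left this hd]
  rcases le_total δ ε with hde | hde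
  all_goals
    rcases le_or_gt (max δ ε) a with ha | ha
    · obtain ⟨ha1, ha2⟩ := max_le_iff.1 ha
      rw [abs_of_nonneg (sub_nonneg.2 ha1), abs_of_nonneg (sub_nonneg.2 ha2)]
      first
      | (rw [abs_of_nonpos (sub_nonpos.2 hde)] at h2
         have := up (m + -(δ - ε)) n (a - ε) (by linarith) hn.le (by linarith)
         rw [show m + -(δ - ε) + (a - ε) = m + (a - δ) by ring] at this
         linarith)
      | (rw [abs_of_nonneg (sub_nonneg.2 hde)] at h1
         have := up m (n + (δ - ε)) (a - δ) hm.le (by linarith) (by linarith)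
         rw [show n + (δ - ε) + (a - δ) = n + (a - ε) by ring] at this
         linarith)
    rcases le_or_gt a (min δ ε) with hb | hb
    · obtain ⟨hb1, hb2⟩ := le_min_iff.1 hb
      rw [abs_of_nonpos (sub_nonpos.2 hb1), abs_of_nonpos (sub_nonpos.2 hb2)]
      first
      | (rw [abs_of_nonpos (sub_nonpos.2 hde)] at h1
         refine le_trans (by linarith) (h1.trans (sqrt_le_sqrt ?_))
         gcongr <;> linarith)
      | (rw [abs_of_nonneg (sub_nonneg.2 hde)] at h2
         refine le_trans (by linarith) (h2.trans (sqrt_le_sqrt ?_))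
         gcongr <;> linarith)
    rcases lt_or_ge (K + a) 0 with hk | hk
    · exact hk.le.trans (sqrt_nonneg _)
    refine le_sqrt_of_sq_le ?_
  · have ha' : a < ε := by rwa [max_eq_right hde] at ha
    have hb' : δ < a := by rwa [min_eq_left hde] at hb
    rw [abs_of_nonpos (sub_nonpos.2 hde)] at h1 h2
    rw [abs_of_nonneg (sub_nonneg.2 hb'.le), abs_of_nonpos (sub_nonpos.2 ha'.le)]
    have q2 : (K + ε) ^ 2 ≤ (m + -(δ - ε)) * n :=
      (le_sqrt (by linarith) (mul_nonneg (by linarith) hn.le)).1 h2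
    rcases lt_or_ge (K + δ) 0 with h | h
    · have hu : 0 ≤ (ε - δ) - (a - δ) := by linarith
      refine le_of_mul_le_mul_left ?_ (show 0 < K + ε by linarith)
      nlinarith [mul_le_mul_of_nonneg_left q2 hk,
        mul_nonneg (mul_nonneg hu hk) (show (0 : ℝ) ≤ K + ε by linarith),
        mul_nonneg hu (mul_nonneg (show (0 : ℝ) ≤ m + (-K - δ) by linarith)
          (show (0 : ℝ) ≤ n + (ε - -K) by linarith))]
    · have q1 := (le_sqrt h (mul_nonneg hm.le (by linarith))).1 h1
      have hl : 0 < ε - δ := by linarith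
      refine le_of_mul_le_mul_left ?_ hl
      nlinarith [mul_le_mul_of_nonneg_left q1 (sub_nonneg.2 ha'.le),
        mul_le_mul_of_nonneg_left q2 (sub_nonneg.2 hb'.le),
        mul_nonneg hl.le (mul_nonneg (sub_nonneg.2 hb'.le) (sub_nonneg.2 ha'.le))]
  · have ha' : a < δ := by rwa [max_eq_left hde] at ha
    have hb' : ε < a := by rwa [min_eq_right hde] at hb
    rw [abs_of_nonneg (sub_nonneg.2 hde)] at h1 h2
    rw [abs_of_nonneg (sub_nonneg.2 hb'.le), abs_of_nonpos (sub_nonpos.2 ha'.le)]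
    have q1 : (K + δ) ^ 2 ≤ m * (n + (δ - ε)) :=
      (le_sqrt (by linarith) (mul_nonneg hm.le (by linarith))).1 h1
    rcases lt_or_ge (K + ε) 0 with h | h
    · have hu : 0 ≤ (δ - ε) - (a - ε) := by linarith
      refine le_of_mul_le_mul_left ?_ (show 0 < K + δ by linarith)
      nlinarith [mul_le_mul_of_nonneg_left q1 hk,
        mul_nonneg (mul_nonneg hu hk) (show (0 : ℝ) ≤ K + δ by linarith),
        mul_nonneg hu (mul_nonneg (show (0 : ℝ) ≤ n + (-K - ε) by linarith)
          (show (0 : ℝ) ≤ m + (δ - -K) by linarith))]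
    · have q2 := (le_sqrt h (mul_nonneg (by linarith) hn.le)).1 h2
      have hl : 0 < δ - ε := by linarith
      refine le_of_mul_le_mul_left ?_ hl
      nlinarith [mul_le_mul_of_nonneg_left q2 (sub_nonneg.2 ha'.le),
        mul_le_mul_of_nonneg_left q1 (sub_nonneg.2 hb'.le),
        mul_nonneg hl.le (mul_nonneg (sub_nonneg.2 hb'.le) (sub_nonneg.2 ha'.le))]

/-- The two kinks in the variables adapted to the scale `t`. -/
theorem pointwise {t M D y φ L : ℝ} (ht : 0 < t) (hM : 0 < M) (hD : |D| ≤ 8 / 100 * M)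
    (hy : 3 * |y| ≤ M + |D|) (hL : M * L = 62 / 100 * y ^ 2 + 55 / 10 * D ^ 2) (a : ℝ) :
    M - φ - L + a ≤ √((t * (M + D) + |a - (φ + t * y)|)
      * ((M - D) / t + |a - (φ - y / t)|)) := by
  have hd1 := (abs_le.1 hD).1
  have hd2 := (abs_le.1 hD).2
  have hm : 0 < t * (M + D) := mul_pos ht (by linarith)
  have hn : 0 < (M - D) / t := div_pos (by linarith) ht
  have hL0 : 0 ≤ L := by nlinarith [sq_nonneg y, sq_nonneg D]
  have hMD : 0 ≤ (M + D) * (M - D) := mul_nonneg (by linarith) (by linarith)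
  have hbase : M - L ≤ √((M + D) * (M - D)) := by
    refine (show M - L ≤ M - D ^ 2 / M from ?_).trans (le_sqrt_of_sq_le ?_)
    · have : D ^ 2 / M ≤ L := by rw [div_le_iff₀ hM]; nlinarith [sq_nonneg y, sq_nonneg D]
      linarith
    · have : (D ^ 2 / M) * M = D ^ 2 := div_mul_cancel₀ _ hM.ne'
      have h0 : 0 ≤ D ^ 2 / M := by positivity
      have h1 : D ^ 2 / M ≤ M := by rw [div_le_iff₀ hM]; nlinarith
      nlinarith
  have hx : |φ + t * y - (φ - y / t)| = (t + 1 / t) * |y| := by
    rw [show φ + t * y - (φ - y / t) = (t + 1 / t) * y by ring, abs_mul,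
      abs_of_pos (by positivity)]
  refine all_shifts hm hn ?_ ?_ a <;> rw [hx]
  · rw [show t * (M + D) * ((M - D) / t + (t + 1 / t) * |y|)
        = (M + D) * (M - D) + (t ^ 2 + 1) * (M + D) * |y| by field_simp]
    rcases le_total 0 y with hy0 | hy0
    · rw [abs_of_nonneg hy0] at hy ⊢
      exact le_sqrt_of_sq_le (le_of_eq_of_le (by ring) (case_bound (t := t) hM hy0 hy hD hL))
    · calc M - φ - L + (φ + t * y) ≤ M - L := by nlinarith
        _ ≤ _ := hbase
        _ ≤ _ := sqrt_le_sqrt (le_add_of_nonneg_right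
            (mul_nonneg (mul_nonneg (by positivity) (by linarith)) (abs_nonneg y)))
  · rw [show (t * (M + D) + (t + 1 / t) * |y|) * ((M - D) / t)
        = (M - D) * (M + D) + ((1 / t) ^ 2 + 1) * (M - D) * |y| by field_simp; ring]
    rcases le_total y 0 with hy0 | hy0
    · rw [abs_of_nonpos hy0] at hy ⊢
      have := case_bound (t := 1 / t) (M := M) (y := -y) (D := -D) (L := L) hM
        (by linarith) (by rwa [abs_neg]) (by rwa [abs_neg]) (by rw [neg_sq, neg_sq]; exact hL)
      refine le_sqrt_of_sq_le (le_of_eq_of_le (by ring) (this.trans (le_of_eq (by ring))))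
    · calc M - φ - L + (φ - y / t) ≤ M - L := by
            have : 0 ≤ y / t := div_nonneg hy0 ht.le
            linarith
        _ ≤ _ := hbase
        _ = √((M - D) * (M + D)) := by rw [mul_comm]
        _ ≤ _ := sqrt_le_sqrt (le_add_of_nonneg_right
            (mul_nonneg (mul_nonneg (by positivity) (by linarith)) (abs_nonneg y)))

end

end Vale.Agent.P227.Rot
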