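import Vale.Agent.P227.Rot.Area

/-!
# P227, rotations: the slice inequality

For plane bodies `P`, `Q` with a common odd rotational symmetry the slice of the midpoint of the
two antiprisms over `P` and `Q` has area at least `√(|P| |Q|)`.
-/

namespace Vale.Agent.P227.Rot

open MeasureTheory Set Matrix Real Finset Filter
open scoped ENNReal Topology

noncomputable section

/-- The slice of the midpoint of two antiprisms. -/
def rotMid (P Q : Set (Fin 2 → ℝ)) : Set (Fin 2 → ℝ) :=
  {x | ∀ v : Fin 2 → ℝ, ∀ a : ℝ, v ⬝ᵥ x + a ≤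
    √(max (supp P v + a) (supp P (-v) - a) * max (supp Q v + a) (supp Q (-v) - a))}

variable {p : ℕ} {P Q : Set (Fin 2 → ℝ)}

/-- The slice inequality. -/
theorem slice (hp : Odd p) (hp3 : 3 ≤ p) (hP : RotBody p P) (hQ : RotBody p Q) :
    volume P * volume Q ≤ volume (rotMid P Q) ^ 2 := by
  rcases eq_or_ne (volume P) 0 with hPv | hPv
  · simp [hPv]
  rcases eq_or_ne (volume Q) 0 with hQv | hQv
  · simp [hQv]
  have hp' : (3 : ℝ) ≤ p := by exact_mod_cast hp3
  set θ : ℕ → ℝ := fun j => π / (p * (2 ^ j : ℕ))
  have hθ0 : ∀ j, 0 < θ j := fun j => by positivity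
  have hcl : ∀ s, IsClosed (rotPoly P Q s) := fun s => by
    simp only [rotPoly, Set.ofPred_forall]
    exact isClosed_iInter fun i => isClosed_iInter fun a =>
      isClosed_le ((continuous_dot _).add continuous_const) continuous_const
  set W : ℕ → Set (Fin 2 → ℝ) := fun j => rotPoly P Q (θ j)
  have hanti : Antitone W := by
    refine antitone_nat_of_succ_le fun j x hx i a => ?_
    have h := hx (2 * i) a
    have e : ((2 * i : ℤ) : ℝ) * θ (j + 1) = i * θ j := by
      simp only [θ]; push_cast; rw [pow_succ]; field_simp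
    rwa [e] at h
  have hfin : volume (W 0) ≠ ⊤ := by
    set b := θ 0 with hb
    have hs : 0 < sin b := by
      refine sin_pos_of_pos_of_lt_pi (hθ0 0) ?_
      simp only [hb, θ]
      rw [div_lt_iff₀ (by positivity)]
      push_cast
      nlinarith [pi_pos]
    set F : ℤ → ℝ := fun i => √(max (supp P (dir (i * b)) + 0) (supp P (-dir (i * b)) - 0)
      * max (supp Q (dir (i * b)) + 0) (supp Q (-dir (i * b)) - 0))
    set R0 := max (F 0) (F p)
    set R1 := max (F 1) (F (p + 1))
    have hbox : W 0 ⊆ Set.univ.pi fun _ : Fin 2 =>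
        Set.Icc (-(R0 + (R1 + R0) / sin b)) (R0 + (R1 + R0) / sin b) := by
      intro x hx i _
      have hi : ∀ e : ℤ, dir (e * b) ⬝ᵥ x ≤ F e := fun e => by simpa [F] using hx e 0
      have hbπ : (p : ℝ) * b = π := by simp only [hb, θ]; push_cast; field_simp
      have g0 := hi 0
      have g0' := hi p
      have g1 := hi 1
      have g1' := hi (p + 1)
      rw [dir_dot] at g0 g0' g1 g1'
      push_cast at g0 g0' g1 g1'
      rw [add_mul, one_mul, hbπ, add_comm π, cos_add_pi, sin_add_pi] at g1'
      rw [hbπ, cos_pi, sin_pi] at g0'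
      rw [zero_mul, cos_zero, sin_zero] at g0
      rw [one_mul] at g1
      have m1 := le_max_left (F 0) (F p); have m2 := le_max_right (F 0) (F p)
      have m3 := le_max_left (F 1) (F (p + 1)); have m4 := le_max_right (F 1) (F (p + 1))
      have hx0 : |x 0| ≤ R0 := abs_le.2 ⟨by linarith, by linarith⟩
      have hcx : |cos b * x 0| ≤ R0 := by
        rw [abs_mul]
        exact (mul_le_mul (abs_cos_le_one b) hx0 (abs_nonneg _) zero_le_one).trans (by linarith)
      have hx1 : |x 1| ≤ (R1 + R0) / sin b := by
        rw [le_div_iff₀ hs]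
        obtain ⟨c1, c2⟩ := abs_le.1 hcx
        rw [← abs_of_pos hs, ← abs_mul, abs_le]
        constructor <;> linarith
      have hR0 : 0 ≤ R0 := (abs_nonneg _).trans hx0
      have hR1 : 0 ≤ (R1 + R0) / sin b := (abs_nonneg _).trans hx1
      refine abs_le.1 ?_
      fin_cases i
      · exact hx0.trans (by linarith)
      · exact hx1.trans (by linarith)
    exact measure_ne_top_of_subset hbox
      (isCompact_univ_pi fun _ : Fin 2 => isCompact_Icc).measure_lt_top.ne
  have hlim := tendsto_measure_iInter_atTop (μ := volume)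
    (fun j => (hcl (θ j)).measurableSet.nullMeasurableSet) hanti ⟨0, hfin⟩
  have hinter : ⋂ j, W j ⊆ rotMid P Q := by
    intro x hx v a
    have hsup : ∀ A, RotBody p A → Continuous (supp A) := fun A hA' =>
      hA'.compact.continuous_sSup (f := fun u x => u ⬝ᵥ x)
        (show Continuous fun z : (Fin 2 → ℝ) × (Fin 2 → ℝ) => ∑ i, z.1 i * z.2 i from
          continuous_finsetSum _ fun i _ => by fun_prop)
    set r := ‖(⟨v 0, v 1⟩ : ℂ)‖ with hr
    set s := Complex.arg ⟨v 0, v 1⟩
    have hv : v = r • dir s := by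
      funext i
      fin_cases i
      · simp [dir, r, s, Complex.norm_mul_cos_arg]
      · simp [dir, r, s, Complex.norm_mul_sin_arg]
    have hcl' : IsClosed {u : Fin 2 → ℝ | r • u ⬝ᵥ x + a ≤
        √(max (supp P (r • u) + a) (supp P (-(r • u)) - a)
          * max (supp Q (r • u) + a) (supp Q (-(r • u)) - a))} := by
      have hru : Continuous fun u : Fin 2 → ℝ => r • u := continuous_id'.const_smul r
      refine isClosed_le ?_ ?_
      · exact ((continuous_finsetSum _ fun i _ =>
          (continuous_apply i).mul continuous_const).comp hru).add continuous_const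
      · exact Continuous.sqrt ((((hsup P hP).comp hru).add continuous_const).max
          (((hsup P hP).comp hru.neg).sub continuous_const) |>.mul
          ((((hsup Q hQ).comp hru).add continuous_const).max
          (((hsup Q hQ).comp hru.neg).sub continuous_const)))
    rw [hv]
    have hseq : Tendsto (fun j => dir ((⌊s / θ j⌋ : ℤ) * θ j)) atTop (𝓝 (dir s)) := by
      have hθlim : Tendsto θ atTop (𝓝 0) := by
        have : Tendsto (fun j : ℕ => π / (p : ℝ) * (1 / 2 : ℝ) ^ j) atTop (𝓝 0) := by
          simpa using (tendsto_pow_atTop_nhds_zero_of_lt_one (by norm_num)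
            (by norm_num : (1 / 2 : ℝ) < 1)).const_mul (π / (p : ℝ))
        refine this.congr fun j => ?_
        simp only [θ]
        push_cast
        rw [div_pow, one_pow]
        field_simp
      have hang : Tendsto (fun j => (⌊s / θ j⌋ : ℝ) * θ j) atTop (𝓝 s) := by
        refine tendsto_of_tendsto_of_tendsto_of_le_of_le
          (by simpa using tendsto_const_nhds.sub hθlim : Tendsto (fun j => s - θ j) atTop (𝓝 s))
          tendsto_const_nhds (fun j => ?_) fun j => ?_
        · have := (div_lt_iff₀ (hθ0 j)).1 (Int.lt_floor_add_one (s / θ j))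
          linarith
        · exact (le_div_iff₀ (hθ0 j)).1 (Int.floor_le (s / θ j))
      have hd : Continuous dir := continuous_pi fun i => by
        fin_cases i
        · exact continuous_cos
        · exact continuous_sin
      exact (hd.tendsto s).comp hang
    refine hcl'.mem_of_tendsto hseq (Eventually.of_forall fun j => ?_)
    rcases (norm_nonneg (⟨v 0, v 1⟩ : ℂ)).eq_or_lt with h0 | h0
    · show r • _ ⬝ᵥ x + a ≤ _
      have hz : ∀ A, RotBody p A → supp A (0 : Fin 2 → ℝ) = 0 := fun A hA' => by
        obtain ⟨z, hz, he⟩ : ∃ z ∈ A, (0 : Fin 2 → ℝ) ⬝ᵥ z = supp A 0 :=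
          (hA'.compact.image (continuous_dot _)).sSup_mem (hA'.nonempty.image _)
        rw [← he, zero_dotProduct]
      rw [show r = 0 from h0.symm, zero_smul, neg_zero, zero_dotProduct, hz P hP, hz Q hQ,
        zero_add, zero_sub]
      rw [show max a (-a) = |a| from rfl, Real.sqrt_mul_self (abs_nonneg a)]
      exact le_abs_self a
    have hhom : ∀ A, RotBody p A → ∀ u : Fin 2 → ℝ, supp A (r • u) = r * supp A u := fun A _ u => by
      simp only [supp, smul_dotProduct, smul_eq_mul]
      rw [← Set.image_image (fun z : ℝ => r * z) (fun z => u ⬝ᵥ z)]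
      change sSup ((fun z : ℝ => r • z) '' ((fun z => u ⬝ᵥ z) '' A))
        = r • sSup ((fun z => u ⬝ᵥ z) '' A)
      rw [Set.image_smul, Real.sSup_smul_of_nonneg h0.le]
    have h := mul_le_mul_of_nonneg_left (Set.mem_iInter.1 hx j ⌊s / θ j⌋ (a / r)) h0.le
    set u := dir ((⌊s / θ j⌋ : ℤ) * θ j)
    show r • u ⬝ᵥ x + a ≤ _
    rw [← smul_neg, smul_dotProduct, smul_eq_mul, hhom P hP, hhom P hP, hhom Q hQ, hhom Q hQ]
    have e : r * (a / r) = a := mul_div_cancel₀ _ h0.ne'
    calc r * (u ⬝ᵥ x) + a = r * (u ⬝ᵥ x + a / r) := by rw [mul_add, e]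
      _ ≤ _ := h
      _ = _ := by
        have e2 : ∀ X : ℝ, r * √X = √(r * r * X) := fun X => by
          rw [Real.sqrt_mul (mul_self_nonneg r), Real.sqrt_mul_self h0.le]
        rw [e2]
        congr 1
        rw [mul_mul_mul_comm, mul_max_of_nonneg _ _ h0.le, mul_max_of_nonneg _ _ h0.le, mul_add,
          mul_add, mul_sub, mul_sub, e]
  refine le_trans ?_ (pow_le_pow_left' (measure_mono hinter) 2)
  refine ge_of_tendsto (((ENNReal.continuous_pow 2).tendsto _).comp hlim)
    (Eventually.of_forall fun j => ?_)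
  exact rotPoly_area hp hp3 hP hQ hPv hQv (Nat.one_le_two_pow)

end

end Vale.Agent.P227.Rot
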