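import Vale.Agent.P227.Main
import Vale.Agent.P227.Rot.Slice

/-!
# P227, rotations: bodies in space with a common rotational symmetry of odd order

The rotation fixes the coordinate `0` and turns the other two.
-/

namespace Vale.Agent.P227.Rot

open MeasureTheory Set Matrix Real Pointwise
open scoped ENNReal

noncomputable section

/-- Invariance under the rotation by `φ` around the axis of the coordinate `0`. -/
def AxisInv (φ : ℝ) (K : Set (Fin 3 → ℝ)) : Prop :=
  ∀ z : ℝ, ∀ y ∈ sec 0 K z, rot2 φ y ∈ sec 0 K z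

theorem rot2_add (a b : ℝ) (x : Fin 2 → ℝ) : rot2 a (rot2 b x) = rot2 (a + b) x := by
  funext i
  fin_cases i <;> simp [rot2, cos_add, sin_add] <;> ring

theorem rot2_dot (φ : ℝ) (v y : Fin 2 → ℝ) : v ⬝ᵥ rot2 φ y = rot2 (-φ) v ⬝ᵥ y := by
  simp [rot2, dotProduct, Fin.sum_univ_two]
  ring

theorem supp_rot_le {K : Set (Fin 3 → ℝ)} (hK : Ctr K) {φ : ℝ} (h : AxisInv φ K) (t : ℝ)
    (v : Fin 2 → ℝ) :
    supp K ((0 : Fin 3).insertNth t (rot2 (-φ) v)) ≤ supp K ((0 : Fin 3).insertNth t v) := by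
  refine supp_le hK fun x hx => ?_
  obtain ⟨z, y, rfl⟩ : ∃ z y, x = (0 : Fin 3).insertNth z y :=
    ⟨x 0, (0 : Fin 3).removeNth x, (Fin.insertNth_self_removeNth _ x).symm⟩
  rw [dot_insertNth, ← rot2_dot, ← dot_insertNth (0 : Fin 3)]
  exact le_supp hK (h z y hx) _

theorem supp_rot_eq {K : Set (Fin 3 → ℝ)} (hK : Ctr K) {p : ℕ} (hp : 0 < p)
    (h : AxisInv (2 * π / p) K) (t : ℝ) (v : Fin 2 → ℝ) :
    supp K ((0 : Fin 3).insertNth t (rot2 (-(2 * π / p)) v))
      = supp K ((0 : Fin 3).insertNth t v) := by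
  refine le_antisymm (supp_rot_le hK h t v) ?_
  have iter : ∀ (j : ℕ) (w : Fin 2 → ℝ),
      supp K ((0 : Fin 3).insertNth t (rot2 (-(j * (2 * π / p))) w))
        ≤ supp K ((0 : Fin 3).insertNth t w) := by
    intro j
    induction j with
    | zero =>
      intro w
      rw [show rot2 (-(((0 : ℕ) : ℝ) * (2 * π / p))) w = w by
        funext i; fin_cases i <;> simp [rot2]]
    | succ j ih =>
      intro w
      refine le_trans (le_of_eq ?_) ((ih (rot2 (-(2 * π / p)) w)).trans (supp_rot_le hK h t w))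
      rw [rot2_add]
      congr 3
      push_cast
      ring
  refine le_trans (le_of_eq ?_) (iter (p - 1) (rot2 (-(2 * π / p)) v))
  rw [rot2_add]
  congr 1
  have hp' : (p : ℝ) ≠ 0 := by exact_mod_cast hp.ne'
  rw [Nat.cast_sub (by omega : 1 ≤ p), Nat.cast_one,
    show -(((p : ℝ) - 1) * (2 * π / p)) + -(2 * π / p) = -(2 * π) by field_simp; ring]
  congr 1
  funext i
  fin_cases i <;> simp [rot2]

theorem axisInv_comb {K L : Set (Fin 3 → ℝ)} (hK : Ctr K) (hL : Ctr L) {p : ℕ} (hp : 0 < p)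
    (hpK : AxisInv (2 * π / p) K) (hpL : AxisInv (2 * π / p) L) (l : ℝ) :
    AxisInv (2 * π / p) (comb l K L) := fun z y hy u => by
  obtain ⟨t, v, rfl⟩ : ∃ t v, u = (0 : Fin 3).insertNth t v :=
    ⟨u 0, (0 : Fin 3).removeNth u, (Fin.insertNth_self_removeNth _ u).symm⟩
  show _ ≤ supp K _ ^ (1 - l) * supp L _ ^ l
  rw [dot_insertNth, rot2_dot, ← dot_insertNth (0 : Fin 3), ← supp_rot_eq hK hp hpK,
    ← supp_rot_eq hL hp hpL]
  exact hy _

theorem rotBody_sec {K : Set (Fin 3 → ℝ)} (hK : Ctr K) {p : ℕ} (hpK : AxisInv (2 * π / p) K)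
    {z : ℝ} (hne : (sec 0 K z).Nonempty) : RotBody p (sec 0 K z) where
  compact := by
    refine ((hK.compact.image (f := fun x => fun j => x ((0 : Fin 3).succAbove j))
      (continuous_pi fun j => continuous_apply _))).of_isClosed_subset
      (hK.compact.isClosed.preimage (continuous_insertNth_right 0 z)) fun y hy => ⟨_, hy, ?_⟩
    funext j
    simp
  convex := fun y hy w hw a b ha hb hab => by
    have h := hK.convex hy hw ha hb hab
    show ((0 : Fin 3).insertNth z (a • y + b • w) : Fin 3 → ℝ) ∈ K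
    convert h using 1
    funext i
    refine (0 : Fin 3).succAboveCases ?_ (fun j => ?_) i
    · simp [← add_mul, hab]
    · simp
  nonempty := hne
  rot := hpK z

theorem rotBody_smul {P : Set (Fin 2 → ℝ)} {p : ℕ} (hP : RotBody p P) (s : ℝ) :
    RotBody p (s • P) where
  compact := hP.compact.smul s
  convex := hP.convex.smul s
  nonempty := hP.nonempty.smul_set
  rot := by
    rintro _ ⟨x, hx, rfl⟩
    refine ⟨_, hP.rot x hx, ?_⟩
    funext i
    fin_cases i <;> simp [rot2] <;> ring

theorem supp_smul_set {P : Set (Fin 2 → ℝ)} {s : ℝ} (hs : 0 ≤ s) (v : Fin 2 → ℝ) :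
    supp (s • P) v = s * supp P v := by
  show sSup ((fun y => v ⬝ᵥ y) '' (s • P)) = s • sSup ((fun y => v ⬝ᵥ y) '' P)
  rw [← Real.sSup_smul_of_nonneg hs, ← Set.image_smul, ← Set.image_smul, Set.image_image,
    Set.image_image]
  simp [dotProduct_smul]

theorem sec_half_rot {K L : Set (Fin 3 → ℝ)} (hK : Ctr K) (hL : Ctr L) {p : ℕ}
    (hpK : AxisInv (2 * π / p) K) (hpL : AxisInv (2 * π / p) L) {z w : ℝ} (hz : 0 < z)
    (hw : 0 < w) (hzK : (sec 0 K z).Nonempty) (hwL : (sec 0 L w).Nonempty) :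
    rotMid ((√(w / z)) • sec 0 K z) ((√(z / w)) • sec 0 L w) ⊆ sec 0 (half K L) (√(z * w)) := by
  intro y hy u
  obtain ⟨t, v, rfl⟩ : ∃ t v, u = (0 : Fin 3).insertNth t v :=
    ⟨u 0, (0 : Fin 3).removeNth u, (Fin.insertNth_self_removeNth _ u).symm⟩
  rw [dot_insertNth]
  have bd : ∀ (A : Set (Fin 3 → ℝ)), Ctr A → AxisInv (2 * π / p) A → ∀ c, (sec 0 A c).Nonempty →
      max (supp (sec 0 A c) v + t * c) (supp (sec 0 A c) (-v) - t * c)
        ≤ supp A ((0 : Fin 3).insertNth t v) := by
    intro A hA hpA c hne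
    have hb := rotBody_sec hA hpA hne
    have ex : ∀ q : Fin 2 → ℝ, ∃ x ∈ sec 0 A c, q ⬝ᵥ x = supp (sec 0 A c) q := fun q =>
      (hb.compact.image (continuous_dot _)).sSup_mem (hb.nonempty.image _)
    refine max_le ?_ ?_
    · obtain ⟨x, hx, he⟩ := ex v
      refine le_of_eq_of_le ?_ (le_supp hA hx _)
      rw [dot_insertNth, he]; ring
    · obtain ⟨x, hx, he⟩ := ex (-v)
      refine le_of_eq_of_le ?_ (le_supp hA (hA.neg_mem _ hx) _)
      rw [dotProduct_neg, dot_insertNth, ← he, neg_dotProduct]; ring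
  have hKb := bd K hK hpK z hzK
  have hLb := bd L hL hpL w hwL
  have hs : 0 < √(w / z) := sqrt_pos.2 (div_pos hw hz)
  have hr : 0 < √(z / w) := sqrt_pos.2 (div_pos hz hw)
  have e1 : t * √(z * w) = √(w / z) * (t * z) := by
    rw [show z * w = w / z * (z * z) by field_simp, sqrt_mul (div_pos hw hz).le,
      sqrt_mul_self hz.le]
    ring
  have e2 : t * √(z * w) = √(z / w) * (t * w) := by
    rw [show z * w = z / w * (w * w) by field_simp, sqrt_mul (div_pos hz hw).le,
      sqrt_mul_self hw.le]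
    ring
  have h := hy v (t * √(z * w))
  rw [supp_smul_set hs.le, supp_smul_set hs.le, supp_smul_set hr.le, supp_smul_set hr.le] at h
  have h1 : max (√(w / z) * supp (sec 0 K z) v + t * √(z * w))
      (√(w / z) * supp (sec 0 K z) (-v) - t * √(z * w))
      = √(w / z) * max (supp (sec 0 K z) v + t * z) (supp (sec 0 K z) (-v) - t * z) := by
    rw [mul_max_of_nonneg _ _ hs.le, mul_add, mul_sub, ← e1]
  have h2 : max (√(z / w) * supp (sec 0 L w) v + t * √(z * w))
      (√(z / w) * supp (sec 0 L w) (-v) - t * √(z * w))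
      = √(z / w) * max (supp (sec 0 L w) v + t * w) (supp (sec 0 L w) (-v) - t * w) := by
    rw [mul_max_of_nonneg _ _ hr.le, mul_add, mul_sub, ← e2]
  rw [h1, h2, mul_mul_mul_comm, ← sqrt_mul (div_pos hw hz).le, div_mul_div_comm, mul_comm w z,
    div_self (mul_pos hz hw).ne', sqrt_one, one_mul] at h
  have hLb0 : 0 ≤ max (supp (sec 0 L w) v + t * w) (supp (sec 0 L w) (-v) - t * w) := by
    obtain ⟨x, hx⟩ := hwL
    have hb := rotBody_sec hL hpL ⟨x, hx⟩
    have u1 : ∀ q : Fin 2 → ℝ, q ⬝ᵥ x ≤ supp (sec 0 L w) q := fun q =>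
      le_csSup (hb.compact.image (continuous_dot q)).bddAbove ⟨x, hx, rfl⟩
    have := u1 v
    have := u1 (-v)
    rw [neg_dotProduct] at this
    rcases le_total 0 (supp (sec 0 L w) v + t * w) with h | h
    · exact h.trans (le_max_left _ _)
    · exact le_trans (by linarith) (le_max_right _ _)
  refine le_trans (by linarith) (h.trans (sqrt_le_sqrt ?_))
  exact mul_le_mul hKb hLb hLb0 (supp_nonneg hK _)

theorem volume_eq_exp_rot {K : Set (Fin 3 → ℝ)} (hK : Ctr K) :
    volume K = 2 * ∫⁻ s, ENNReal.ofReal (Real.exp s) * volume (sec 0 K (Real.exp s)) := by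
  set F := fun z => volume (sec 0 K z)
  have heven : ∀ z, F (-z) = F z := by
    intro z
    show volume (sec 0 K (-z)) = volume (sec 0 K z)
    have e : sec 0 K (-z) = Neg.neg ⁻¹' sec 0 K z := by
      ext y
      show ((0 : Fin 3).insertNth (-z) y : Fin 3 → ℝ) ∈ K ↔ (0 : Fin 3).insertNth z (-y) ∈ K
      have e : (-((0 : Fin 3).insertNth (-z) y : Fin 3 → ℝ)) = (0 : Fin 3).insertNth z (-y) := by
        funext i
        refine (0 : Fin 3).succAboveCases ?_ (fun j => ?_) i <;> simp
      exact ⟨fun h => e ▸ hK.neg_mem _ h, fun h => by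
        have := hK.neg_mem _ h; rwa [← e, neg_neg] at this⟩
    rw [e, (Measure.measurePreserving_neg (volume : Measure (Fin 2 → ℝ))).measure_preimage
      (show MeasurableSet (sec 0 K z) from (hK.compact.isClosed.preimage
        (continuous_insertNth_right 0 z)).measurableSet).nullMeasurableSet]
  have hneg : ∫⁻ z in Iic (0 : ℝ), F z = ∫⁻ z in Ioi (0 : ℝ), F z := by
    rw [setLIntegral_congr Iio_ae_eq_Iic.symm,
      ← (Measure.measurePreserving_neg (volume : Measure ℝ)).setLIntegral_comp_preimage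
        measurableSet_Iio (measurable_sec_volume 0 hK.compact.measurableSet),
      show (Neg.neg : ℝ → ℝ) ⁻¹' Iio 0 = Ioi 0 by ext z; simp]
    exact lintegral_congr fun z => heven z
  have hexp : ∫⁻ z in Ioi (0 : ℝ), F z
      = ∫⁻ s, ENNReal.ofReal (Real.exp s) * F (Real.exp s) := by
    rw [← Real.range_exp, ← image_univ,
      lintegral_image_eq_lintegral_abs_deriv_mul MeasurableSet.univ
        (fun x _ => (Real.hasDerivAt_exp x).hasDerivWithinAt) Real.exp_injective.injOn,
      Measure.restrict_univ]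
    simp [abs_of_pos (Real.exp_pos _)]
  rw [volume_eq_lintegral_sec 0 hK.compact.measurableSet,
    ← lintegral_add_compl _ (measurableSet_Iic (a := (0 : ℝ))), compl_Iic, hneg, hexp, two_mul]

/-- The midpoint inequality for a common rotational symmetry of odd order. -/
theorem half_le_rot {p : ℕ} (hp : Odd p) (hp3 : 3 ≤ p) {K L : Set (Fin 3 → ℝ)} (hK : Ctr K)
    (hL : Ctr L) (hpK : AxisInv (2 * π / p) K) (hpL : AxisInv (2 * π / p) L) :
    volume K * volume L ≤ volume (half K L) ^ 2 := by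
  have hW := ctr_half hK hL
  have hm : ∀ A : Set (Fin 3 → ℝ), IsCompact A →
      Measurable fun s => ENNReal.ofReal (Real.exp s) * volume (sec 0 A (Real.exp s)) :=
    fun A hA => Real.measurable_exp.ennreal_ofReal.mul
      ((measurable_sec_volume 0 hA.measurableSet).comp Real.measurable_exp)
  have key := P047.Disproof.prekopa_real (hm K hK.compact) (hm L hL.compact) (hm _ hW.compact)
    fun a b => by
      rcases (sec 0 K (Real.exp a)).eq_empty_or_nonempty with ha | ha
      · simp [ha]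
      rcases (sec 0 L (Real.exp b)).eq_empty_or_nonempty with hb | hb
      · simp [hb]
      have za := Real.exp_pos a
      have zb := Real.exp_pos b
      have h1 := slice hp hp3 (rotBody_smul (rotBody_sec hK hpK ha) (√(Real.exp b / Real.exp a)))
        (rotBody_smul (rotBody_sec hL hpL hb) (√(Real.exp a / Real.exp b)))
      have hvol : ∀ (s : ℝ) (A : Set (Fin 2 → ℝ)), 0 ≤ s →
          volume (√s • A) = ENNReal.ofReal s * volume A := fun s A hs => by
        rw [Measure.addHaar_smul_of_nonneg volume (sqrt_nonneg s), Module.finrank_fin_fun,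
          sq_sqrt hs]
      rw [hvol _ _ (by positivity), hvol _ _ (by positivity), mul_mul_mul_comm,
        ← ENNReal.ofReal_mul (by positivity), div_mul_div_comm, mul_comm (Real.exp b),
        div_self (mul_pos za zb).ne', ENNReal.ofReal_one, one_mul] at h1
      have h2 := h1.trans (pow_le_pow_left' (measure_mono
        (sec_half_rot hK hL hpK hpL za zb ha hb)) 2)
      have hmid : √(Real.exp a * Real.exp b) = Real.exp ((a + b) / 2) := by
        rw [← Real.exp_add, ← Real.exp_half]
      rw [hmid] at h2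
      rw [mul_mul_mul_comm, mul_pow, ← ENNReal.ofReal_mul za.le, ← Real.exp_add,
        ← ENNReal.ofReal_pow (Real.exp_pos _).le, ← Real.exp_nat_mul,
        show ((2 : ℕ) : ℝ) * ((a + b) / 2) = a + b by push_cast; ring]
      exact mul_le_mul_right h2 _
  rw [volume_eq_exp_rot hK, volume_eq_exp_rot hL, volume_eq_exp_rot hW,
    mul_mul_mul_comm, mul_pow, sq (2 : ℝ≥0∞)]
  exact mul_le_mul_right key _

end

end Vale.Agent.P227.Rot
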